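import Mathlib

/-!
# P204: integrals of kernels against a measure with controlled ball growth

`r` is a distance from a fixed point, on any measurable space.
-/

open MeasureTheory Finset Filter

namespace Vale.Agent.P204.Est

variable {α : Type*} [MeasurableSpace α] {μ : Measure α} [IsFiniteMeasure μ] {r : α → ℝ}

/-- Integrate a pointwise bound by a finite combination of balls. -/
theorem layer (hr : Measurable r) {f : α → ℝ} (hf : ∀ p, 0 ≤ f p) (K : ℕ) (a R : ℕ → ℝ) (b : ℝ)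
    (h : ∀ p, f p ≤ b + ∑ k ∈ range K, a k * ({q | r q ≤ R k} : Set α).indicator (fun _ => 1) p) :
    ∫ p, f p ∂μ ≤ b * μ.real Set.univ + ∑ k ∈ range K, a k * μ.real {q | r q ≤ R k} := by
  have hm : ∀ k, MeasurableSet {q | r q ≤ R k} := fun k => measurableSet_le hr measurable_const
  have hi : ∀ k, Integrable
      (fun p => a k * ({q | r q ≤ R k} : Set α).indicator (fun _ => (1 : ℝ)) p) μ :=
    fun k => ((integrable_const (1 : ℝ)).indicator (hm k)).const_mul _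
  refine (integral_mono_of_nonneg (ae_of_all _ hf)
    ((integrable_const b).add (integrable_finsetSum _ fun k _ => hi k)) (ae_of_all _ h)).trans_eq ?_
  simp only [Pi.add_apply]
  rw [integral_add (integrable_const b) (integrable_finsetSum _ fun k _ => hi k),
    integral_finsetSum _ fun k _ => hi k, integral_const, smul_eq_mul, mul_comm]
  refine congrArg₂ _ rfl (sum_congr rfl fun k _ => ?_)
  rw [integral_const_mul, integral_indicator_const (1 : ℝ) (hm k), smul_eq_mul, mul_one]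

/-- Convolution with a kernel of width `ε` decaying like the sixth power. -/
theorem kernel_bound (hr : Measurable r) (r0 : ∀ p, 0 ≤ r p) {D : ℝ} (rD : ∀ p, r p ≤ D) {ε A : ℝ}
    {d : ℕ} (hd : d ≤ 4) (hε : 0 < ε) (hA : ∀ t, ε ≤ t → μ.real {q | r q ≤ t} ≤ A * t ^ d) :
    ∫ p, 1 / (1 + r p ^ 2 / ε ^ 2) ^ 3 ∂μ ≤ 128 * A * ε ^ d := by
  obtain ⟨K, hK⟩ := pow_unbounded_of_one_lt (D / ε) (one_lt_two (α := ℝ))
  have hA0 : 0 ≤ A := by
    have h := measureReal_nonneg.trans (hA ε le_rfl)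
    exact nonneg_of_mul_nonneg_left h (pow_pos hε d)
  have hb : ∀ p, 1 / (1 + r p ^ 2 / ε ^ 2) ^ 3 ≤ 0 + ∑ k ∈ range (K + 1), 64 * (1 / 64 : ℝ) ^ k
      * ({q | r q ≤ 2 ^ k * ε} : Set α).indicator (fun _ => 1) p := fun p => by
    have hex : ∃ k, r p ≤ 2 ^ k * ε := ⟨K, (rD p).trans ((div_lt_iff₀ hε).1 hK).le⟩
    set k := Nat.find hex with hkdef
    have hk : r p ≤ 2 ^ k * ε := Nat.find_spec hex
    have hkK : k ∈ range (K + 1) :=
      mem_range.2 (Nat.lt_succ_of_le (Nat.find_le ((rD p).trans ((div_lt_iff₀ hε).1 hK).le)))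
    have hone : 1 ≤ 1 + r p ^ 2 / ε ^ 2 := le_add_of_nonneg_right (by positivity)
    have ht : 1 / (1 + r p ^ 2 / ε ^ 2) ^ 3 ≤ 64 * (1 / 64 : ℝ) ^ k := by
      rcases k.eq_zero_or_pos with hk0 | hk0
      · rw [hk0, pow_zero, mul_one, div_le_iff₀ (by positivity)]
        nlinarith [one_le_pow₀ hone (n := 3)]
      · obtain ⟨i, hi⟩ : ∃ i, k = i + 1 := ⟨k - 1, by omega⟩
        have hnot : 2 ^ i * ε < r p := not_le.1 (Nat.find_min hex (by omega))
        have h1 : (2 ^ i : ℝ) ^ 2 ≤ 1 + r p ^ 2 / ε ^ 2 := by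
          have : (2 ^ i * ε) ^ 2 ≤ r p ^ 2 := pow_le_pow_left₀ (by positivity) hnot.le 2
          rw [mul_pow] at this
          exact ((le_div_iff₀ (by positivity)).2 this).trans (by linarith)
        have h2 : (64 : ℝ) ^ i ≤ (1 + r p ^ 2 / ε ^ 2) ^ 3 := by
          refine (le_of_eq ?_).trans (pow_le_pow_left₀ (by positivity) h1 3)
          rw [← pow_mul, ← pow_mul, show i * (2 * 3) = 6 * i by ring, pow_mul]; norm_num
        rw [hi]
        refine (one_div_le_one_div_of_le (by positivity) h2).trans_eq ?_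
        rw [one_div_pow, pow_succ]; field_simp
    refine ht.trans ?_
    rw [zero_add]
    refine le_trans (le_of_eq ?_) (single_le_sum
      (f := fun k => 64 * (1 / 64 : ℝ) ^ k * ({q | r q ≤ 2 ^ k * ε} : Set α).indicator (fun _ => 1) p)
      (fun i _ => mul_nonneg (by positivity) (Set.indicator_nonneg (fun _ _ => zero_le_one) _)) hkK)
    simp [hk]
  refine (layer hr (fun p => by positivity) _ _ _ _ hb).trans ?_
  rw [zero_mul, zero_add]
  have hterm : ∀ k : ℕ, 64 * (1 / 64 : ℝ) ^ k * μ.real {q | r q ≤ 2 ^ k * ε}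
      ≤ 64 * A * ε ^ d * (1 / 2) ^ k := fun k => by
    refine (mul_le_mul_of_nonneg_left (hA _ (le_mul_of_one_le_left hε.le (one_le_pow₀ one_le_two)))
      (by positivity)).trans ?_
    have h2 : ((2 : ℝ) ^ k) ^ d ≤ ((2 : ℝ) ^ k) ^ 4 := pow_le_pow_right₀ (one_le_pow₀ one_le_two) hd
    have h3 : (1 / 64 : ℝ) ^ k * ((2 : ℝ) ^ k) ^ 4 ≤ (1 / 2) ^ k := by
      rw [← pow_mul, mul_comm k, pow_mul, ← mul_pow]
      exact pow_le_pow_left₀ (by norm_num) (by norm_num) k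
    rw [mul_pow]
    calc 64 * (1 / 64 : ℝ) ^ k * (A * (((2 : ℝ) ^ k) ^ d * ε ^ d))
        = 64 * A * ε ^ d * ((1 / 64 : ℝ) ^ k * ((2 : ℝ) ^ k) ^ d) := by ring
      _ ≤ 64 * A * ε ^ d * (1 / 2) ^ k := by
          refine mul_le_mul_of_nonneg_left ?_ (by positivity)
          exact (mul_le_mul_of_nonneg_left h2 (by positivity)).trans h3
  refine (sum_le_sum fun k _ => hterm k).trans ?_
  rw [← mul_sum]
  refine (mul_le_mul_of_nonneg_left (sum_geometric_two_le (K + 1)) (by positivity)).trans_eq ?_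
  ring

/-- The Riesz potential of order `j`, regularised at scale `s`. -/
theorem potential_bound (hr : Measurable r) (r0 : ∀ p, 0 ≤ r p) {s r₁ A : ℝ} (j : ℕ) (hs : 0 < s)
    (h₁ : 0 < r₁) (hA0 : 0 ≤ A)
    (hA : ∀ t, s ≤ t → t ≤ 2 * r₁ → μ.real {q | r q ≤ t} ≤ A * t ^ (j + 1)) :
    ∫ p, 1 / Real.sqrt (r p ^ 2 + s ^ 2) ^ j ∂μ ≤ μ.real Set.univ / r₁ ^ j + 4 * 2 ^ j * A * r₁ := by
  set R : α → ℝ := fun p => Real.sqrt (r p ^ 2 + s ^ 2)
  have hRs : ∀ p, s ≤ R p := fun p => Real.le_sqrt_of_sq_le (by nlinarith [sq_nonneg (r p)])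
  have hRr : ∀ p, r p ≤ R p := fun p => Real.le_sqrt_of_sq_le (by nlinarith)
  have hR0 : ∀ p, 0 < R p := fun p => hs.trans_le (hRs p)
  show ∫ p, 1 / R p ^ j ∂μ ≤ _
  rcases le_or_gt r₁ s with hsr | hsr
  · refine (integral_mono_of_nonneg (ae_of_all _ fun p => (one_div_nonneg.2 (pow_nonneg (hR0 p).le j)))
      (integrable_const (1 / r₁ ^ j)) (ae_of_all _ fun p =>
        one_div_le_one_div_of_le (by positivity) (pow_le_pow_left₀ h₁.le (hsr.trans (hRs p)) j))).trans ?_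
    rw [integral_const, smul_eq_mul, mul_one_div]
    exact le_add_of_nonneg_right (by positivity)
  have hex : ∃ K, 2 * r₁ < 2 ^ K * s := by
    obtain ⟨K, hK⟩ := pow_unbounded_of_one_lt (2 * r₁ / s) (one_lt_two (α := ℝ))
    exact ⟨K, (div_lt_iff₀ hs).1 hK⟩
  set K := Nat.find hex with hKdef
  have hKlt : ∀ k < K, (2 : ℝ) ^ k * s ≤ 2 * r₁ := fun k hk => not_lt.1 (Nat.find_min hex hk)
  have hb : ∀ p, 1 / R p ^ j ≤ 1 / r₁ ^ j + ∑ k ∈ range K, 2 ^ j / (2 ^ k * s) ^ j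
      * ({q | r q ≤ 2 ^ k * s} : Set α).indicator (fun _ => 1) p := fun p => by
    have hsum : 0 ≤ ∑ k ∈ range K, 2 ^ j / (2 ^ k * s) ^ j
        * ({q | r q ≤ 2 ^ k * s} : Set α).indicator (fun _ => (1 : ℝ)) p :=
      sum_nonneg fun k _ => mul_nonneg (by positivity) (Set.indicator_nonneg (fun _ _ => zero_le_one) _)
    rcases le_or_gt r₁ (r p) with hp | hp
    · exact (one_div_le_one_div_of_le (by positivity)
        (pow_le_pow_left₀ h₁.le (hp.trans (hRr p)) j)).trans (le_add_of_nonneg_right hsum)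
    have hex' : ∃ k, r p ≤ 2 ^ k * s := ⟨K, by linarith [Nat.find_spec hex]⟩
    set k := Nat.find hex' with hkdef
    have hk : r p ≤ 2 ^ k * s := Nat.find_spec hex'
    have hpt : 2 ^ k * s ≤ 2 * R p ∧ 2 ^ k * s ≤ 2 * r₁ := by
      rcases k.eq_zero_or_pos with hk0 | hk0
      · simp only [hk0, pow_zero, one_mul]
        exact ⟨by linarith [hRs p, hR0 p], by linarith⟩
      · obtain ⟨i, hi⟩ : ∃ i, k = i + 1 := ⟨k - 1, by omega⟩
        have hnot : 2 ^ i * s < r p := not_le.1 (Nat.find_min hex' (by omega))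
        rw [hi, pow_succ]
        exact ⟨by nlinarith [hRr p], by nlinarith⟩
    have hkK : k < K := by
      by_contra hcon
      have : (2 : ℝ) ^ K ≤ 2 ^ k := pow_le_pow_right₀ one_le_two (not_lt.1 hcon)
      nlinarith [Nat.find_spec hex, hpt.2]
    refine le_trans ?_ (le_add_of_nonneg_left (by positivity))
    refine le_trans ?_ (single_le_sum (f := fun k => 2 ^ j / (2 ^ k * s) ^ j
      * ({q | r q ≤ 2 ^ k * s} : Set α).indicator (fun _ => (1 : ℝ)) p) (fun i _ => mul_nonneg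
        (by positivity) (Set.indicator_nonneg (fun _ _ => zero_le_one) _)) (mem_range.2 hkK))
    simp only [Set.mem_ofPred_eq, hk, Set.indicator_of_mem, mul_one]
    rw [div_le_div_iff₀ (pow_pos (hR0 p) j) (by positivity), one_mul, ← mul_pow]
    exact pow_le_pow_left₀ (by positivity) hpt.1 j
  refine (layer hr (fun p => one_div_nonneg.2 (pow_nonneg (hR0 p).le j)) _ _ _ _ hb).trans
    (add_le_add (le_of_eq (one_div_mul_eq_div _ _)) ?_)
  have hterm : ∀ k ∈ range K, 2 ^ j / (2 ^ k * s) ^ j * μ.real {q | r q ≤ 2 ^ k * s}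
      ≤ 2 ^ j * A * (2 ^ k * s) := fun k hk => by
    refine (mul_le_mul_of_nonneg_left (hA _ (le_mul_of_one_le_left hs.le (one_le_pow₀ one_le_two))
      (hKlt k (mem_range.1 hk))) (by positivity)).trans_eq ?_
    rw [pow_succ]; field_simp
  refine (sum_le_sum hterm).trans ?_
  rw [← mul_sum, ← sum_mul, show 4 * 2 ^ j * A * r₁ = 2 ^ j * A * (4 * r₁) by ring]
  refine mul_le_mul_of_nonneg_left ?_ (by positivity)
  rw [geom_sum_eq (by norm_num) K, show (2 : ℝ) - 1 = 1 by norm_num, div_one]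
  rcases K.eq_zero_or_pos with hK0 | hK0
  · simp [hK0]; linarith
  · obtain ⟨i, hi⟩ : ∃ i, K = i + 1 := ⟨K - 1, by omega⟩
    have := hKlt i (by omega)
    rw [hi, pow_succ]
    nlinarith

/-- Dyadic scales between `s` and one. -/
theorem log_scales {s : ℝ} (hs : 0 < s) (hs2 : s ≤ 1 / 2) :
    ∃ S : Finset ℝ, (∀ e ∈ S, 0 < e ∧ e ≤ 1) ∧ (S.card : ℝ) ≤ 5 * Real.log (1 / s) ∧
      ∀ t : ℝ, 0 ≤ t → t ≤ 1 → ∃ e ∈ S, t ≤ e ∧ e ≤ 2 * Real.sqrt (t ^ 2 + s ^ 2) := by
  have hex : ∃ K, 1 ≤ 2 ^ K * s := by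
    obtain ⟨K, hK⟩ := pow_unbounded_of_one_lt (1 / s) (one_lt_two (α := ℝ))
    exact ⟨K, ((div_lt_iff₀ hs).1 hK).le⟩
  set K := Nat.find hex with hK
  refine ⟨(range (K + 1)).image fun k => min ((2 : ℝ) ^ k * s) 1, ?_, ?_, ?_⟩
  · intro e he
    obtain ⟨k, -, rfl⟩ := mem_image.1 he
    exact ⟨lt_min (by positivity) one_pos, min_le_right _ _⟩
  · have h2 : (2 : ℝ) ≤ 1 / s := by rw [le_div_iff₀ hs]; linarith
    have hl : Real.log 2 ≤ Real.log (1 / s) := Real.log_le_log two_pos h2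
    refine (Nat.cast_le.2 (card_image_le.trans_eq (card_range _))).trans ?_
    push_cast
    have hK1 : ((K : ℝ) - 1) * Real.log 2 ≤ Real.log (1 / s) := by
      rcases K.eq_zero_or_pos with h0 | h0
      · rw [h0]; push_cast; linarith [Real.log_two_gt_d9]
      obtain ⟨i, hi⟩ : ∃ i, K = i + 1 := ⟨K - 1, by omega⟩
      have hmin : (2 : ℝ) ^ i * s < 1 := not_le.1 (Nat.find_min hex (by omega))
      have : Real.log ((2 : ℝ) ^ i) ≤ Real.log (1 / s) :=
        Real.log_le_log (by positivity) ((le_div_iff₀ hs).2 hmin.le)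
      rw [Real.log_pow] at this
      rw [hi]; push_cast
      simpa using this
    nlinarith [Real.log_two_gt_d9, hK1]
  · intro t ht ht1
    set R := Real.sqrt (t ^ 2 + s ^ 2)
    have hRs : s ≤ R := Real.le_sqrt_of_sq_le (by nlinarith [sq_nonneg t])
    have hRt : t ≤ R := Real.le_sqrt_of_sq_le (by nlinarith)
    have hex' : ∃ k, t ≤ 2 ^ k * s := ⟨K, ht1.trans (Nat.find_spec hex)⟩
    set k := Nat.find hex'
    have hk : t ≤ 2 ^ k * s := Nat.find_spec hex'
    refine ⟨min ((2 : ℝ) ^ k * s) 1, mem_image.2 ⟨k, mem_range.2 (Nat.lt_succ_of_le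
      (Nat.find_le (ht1.trans (Nat.find_spec hex)))), rfl⟩, le_min hk ht1, ?_⟩
    refine (min_le_left _ _).trans ?_
    rcases k.eq_zero_or_pos with h0 | h0
    · rw [h0, pow_zero, one_mul]; linarith
    · obtain ⟨i, hi⟩ : ∃ i, k = i + 1 := ⟨k - 1, by omega⟩
      have : 2 ^ i * s < t := not_le.1 (Nat.find_min hex' (by omega))
      rw [hi, pow_succ]; linarith

/-- The least constant in the ball growth at radii at least `ε`. -/
theorem exists_growth {ι : Type*} [Nonempty ι] (ρ : ι → α → ℝ) {ε : ℝ} (hε : 0 < ε) :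
    ∃ ν : ℝ, 0 ≤ ν ∧ (∀ x t, ε ≤ t → μ.real {q | ρ x q ≤ t} ≤ ν * t ^ 2) ∧
      ∀ B, (∀ x t, ε ≤ t → μ.real {q | ρ x q ≤ t} ≤ B * t ^ 2) → ν ≤ B := by
  set T : Set ℝ := {v | ∃ x t, ε ≤ t ∧ v = μ.real {q | ρ x q ≤ t} / t ^ 2}
  have hne : T.Nonempty := ⟨_, Classical.arbitrary ι, ε, le_rfl, rfl⟩
  have hbd : BddAbove T := by
    refine ⟨μ.real Set.univ / ε ^ 2, ?_⟩
    rintro v ⟨x, t, ht, rfl⟩
    exact div_le_div₀ measureReal_nonneg (measureReal_mono (Set.subset_univ _)) (by positivity)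
      (pow_le_pow_left₀ hε.le ht 2)
  refine ⟨sSup T, le_trans ?_ (le_csSup hbd ⟨Classical.arbitrary ι, ε, le_rfl, rfl⟩),
    fun x t ht => (div_le_iff₀ (pow_pos (hε.trans_le ht) 2)).1 (le_csSup hbd ⟨x, t, ht, rfl⟩),
    fun B hB => csSup_le hne ?_⟩
  · positivity
  · rintro v ⟨x, t, ht, rfl⟩
    exact (div_le_iff₀ (pow_pos (hε.trans_le ht) 2)).2 (hB x t ht)

/-- The closing of the two estimates. -/
theorem bootstrap (M C : ℝ) (hM : 0 ≤ M) (hC : 1 ≤ C) :
    ∃ B : ℝ, ∀ N ν : ℝ, 0 ≤ N → 0 ≤ ν → N ^ 2 ≤ C * (ν * M + N * Real.sqrt (ν * M)) →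
      (∀ r₁, 0 < r₁ → r₁ ≤ 1 → ν ≤ C * (N + M + ν * r₁ + M / r₁)) → N ≤ B ∧ ν ≤ B := by
  set a := 2 * C
  set b := 2 * C * (1 + 2 * C)
  set c := 2 * C + C ^ 2
  set B₁ := (c * a + c * b + 1) * M
  refine ⟨B₁ + (a * B₁ + b * M), fun N ν hN hν hq hl => ?_⟩
  have h1 := hl (1 / (2 * C)) (by positivity) (by rw [div_le_one (by positivity)]; linarith)
  have e1 : C * (N + M + ν * (1 / (2 * C)) + M / (1 / (2 * C))) = C * N + C * M + ν / 2 + 2 * C ^ 2 * M := by
    field_simp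
  rw [e1] at h1
  have hν2 : ν ≤ a * N + b * M := by simp only [a, b]; nlinarith
  have hs := Real.sq_sqrt (mul_nonneg hν hM)
  have hN2 : N ^ 2 ≤ c * (ν * M) := by
    simp only [c]
    nlinarith [sq_nonneg (N - C * Real.sqrt (ν * M))]
  have hc0 : 0 ≤ c := by simp only [c]; positivity
  have ha0 : 0 ≤ a := by simp only [a]; positivity
  have hb0 : 0 ≤ b := by simp only [b]; positivity
  have hN3 : N ^ 2 ≤ c * M * (a * N + b * M) := by
    refine hN2.trans ?_
    nlinarith [mul_le_mul_of_nonneg_left hν2 (mul_nonneg hc0 hM)]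
  have hN4 : N ≤ B₁ := by
    by_contra hcon
    push Not at hcon
    have hMN : M ≤ B₁ := by
      simp only [B₁]
      exact le_mul_of_one_le_left hM (le_add_of_nonneg_left (by positivity))
    have hN0 : 0 < N := lt_of_le_of_lt (hM.trans hMN) hcon
    have h4 := mul_le_mul_of_nonneg_left (hMN.trans hcon.le) (show 0 ≤ c * b * M by positivity)
    have h5 := mul_lt_mul_of_pos_left hcon hN0
    have h6 : N * B₁ = c * M * a * N + c * b * M * N + M * N := by simp only [B₁]; ring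
    nlinarith [mul_nonneg hM hN]
  have hB1 : 0 ≤ B₁ := by simp only [B₁]; positivity
  exact ⟨by nlinarith, hν2.trans (by nlinarith)⟩

end Vale.Agent.P204.Est
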