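import Mathlib

/-!
# P204: elementary integral inequalities for the a priori bounds
-/

open MeasureTheory

namespace Vale.Agent.P204.Est

variable {α β : Type*} [MeasurableSpace α] [MeasurableSpace β] {μ : Measure α} {ν : Measure β}

/-- Cauchy–Schwarz. -/
theorem abs_integral_mul_le {f g : α → ℝ} (hf : MemLp f 2 μ) (hg : MemLp g 2 μ) :
    |∫ x, f x * g x ∂μ| ≤ Real.sqrt (∫ x, f x ^ 2 ∂μ) * Real.sqrt (∫ x, g x ^ 2 ∂μ) := by
  have hA : 0 ≤ ∫ x, f x ^ 2 ∂μ := integral_nonneg fun x => sq_nonneg _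
  set A := ∫ x, f x ^ 2 ∂μ
  set B := ∫ x, g x ^ 2 ∂μ
  set P := ∫ x, f x * g x ∂μ
  have iff' : Integrable (fun x => f x * g x) μ := hf.integrable_mul hg
  have key : ∀ t : ℝ, 0 ≤ B * (t * t) + 2 * P * t + A := fun t => by
    have h : 0 ≤ ∫ x, (t * g x + f x) ^ 2 ∂μ := integral_nonneg fun x => sq_nonneg _
    have e : ∀ x, (t * g x + f x) ^ 2 = t * t * g x ^ 2 + 2 * t * (f x * g x) + f x ^ 2 := fun x => by ring
    simp only [e] at h
    rw [integral_add ((hg.integrable_sq.const_mul _).fun_add (iff'.const_mul _)) hf.integrable_sq,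
      integral_add (hg.integrable_sq.const_mul _) (iff'.const_mul _), integral_const_mul,
      integral_const_mul] at h
    linarith
  have hd := discrim_le_zero key
  rw [discrim] at hd
  rw [← Real.sqrt_mul hA, ← Real.sqrt_sq_eq_abs]
  exact Real.sqrt_le_sqrt (by linarith)

/-- The tangent line of `1/f²`: a kernel of mass one with small first moment. -/
theorem inv_sq_lower {w f : α → ℝ} {A : ℝ} (hA : 0 < A) (hw : ∀ x, 0 ≤ w x) (hf : ∀ x, 0 < f x)
    (iw : Integrable w μ) (h1 : ∫ x, w x ∂μ = 1) (iwf : Integrable (fun x => w x * f x) μ)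
    (ig : Integrable (fun x => w x / f x ^ 2) μ) (hm : ∫ x, w x * f x ∂μ ≤ A) :
    1 / A ^ 2 ≤ ∫ x, w x / f x ^ 2 ∂μ := by
  have hp : ∀ x, 3 / A ^ 2 * w x - 2 / A ^ 3 * (w x * f x) ≤ w x / f x ^ 2 := fun x => by
    have h : 3 / A ^ 2 - 2 / A ^ 3 * f x ≤ 1 / f x ^ 2 := by
      have hx := hf x
      rw [le_div_iff₀ (pow_pos hx 2), show (3 / A ^ 2 - 2 / A ^ 3 * f x) * f x ^ 2
        = (3 * A * f x ^ 2 - 2 * f x ^ 3) / A ^ 3 by field_simp, div_le_one (pow_pos hA 3)]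
      nlinarith [mul_nonneg (sq_nonneg (A - f x)) (show 0 ≤ A + 2 * f x by linarith)]
    refine (le_of_eq ?_).trans ((mul_le_mul_of_nonneg_left h (hw x)).trans_eq (mul_one_div _ _))
    ring
  refine le_trans ?_ (integral_mono ((iw.const_mul _).sub (iwf.const_mul _)) ig hp)
  simp only [Pi.sub_apply]
  rw [integral_sub (iw.const_mul _) (iwf.const_mul _), integral_const_mul, integral_const_mul, h1]
  have : 2 / A ^ 3 * ∫ x, w x * f x ∂μ ≤ 2 / A ^ 2 := by
    refine (mul_le_mul_of_nonneg_left hm (by positivity)).trans_eq ?_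
    field_simp
  have e : 3 / A ^ 2 - 2 / A ^ 2 = 1 / A ^ 2 := by ring
  linarith

/-- The square norm of a smoothed measure. -/
theorem schur_sq [IsFiniteMeasure μ] [IsFiniteMeasure ν] {F : β → α → ℝ}
    (hF : StronglyMeasurable (Function.uncurry F)) {K : ℝ} (hK : ∀ x p, F x p ≤ K)
    (h0 : ∀ x p, 0 ≤ F x p) {A B : ℝ} (hA : ∀ x, ∫ p, F x p ∂μ ≤ A) (hB : ∀ p, ∫ x, F x p ∂ν ≤ B)
    (hA0 : 0 ≤ A) :
    ∫ x, (∫ p, F x p ∂μ) ^ 2 ∂ν ≤ A * B * μ.real Set.univ := by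
  have hint : Integrable (Function.uncurry F) (ν.prod μ) :=
    Integrable.of_bound hF.aestronglyMeasurable K (ae_of_all _ fun q => by
      obtain ⟨x, p⟩ := q
      show |F x p| ≤ K
      rw [abs_of_nonneg (h0 x p)]; exact hK x p)
  have h1 : ∫ x, (∫ p, F x p ∂μ) ^ 2 ∂ν ≤ ∫ x, A * ∫ p, F x p ∂μ ∂ν :=
    integral_mono_of_nonneg (ae_of_all _ fun x => sq_nonneg _) (hint.integral_prod_left.const_mul A)
      (ae_of_all _ fun x => by
        show (∫ p, F x p ∂μ) ^ 2 ≤ A * ∫ p, F x p ∂μ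
        rw [pow_two]
        exact mul_le_mul_of_nonneg_right (hA x) (integral_nonneg (h0 x)))
  refine h1.trans ?_
  rw [integral_const_mul, integral_integral_swap hint, mul_assoc]
  refine mul_le_mul_of_nonneg_left ?_ hA0
  refine (integral_mono_of_nonneg (ae_of_all _ fun p => integral_nonneg fun x => h0 x p)
    (integrable_const B) (ae_of_all _ hB)).trans_eq ?_
  rw [integral_const, smul_eq_mul, mul_comm]

/-- Kernel algebra: `(1 + t²)⁻⁵` absorbs two powers of `1 + t`. -/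
theorem ker_absorb {t : ℝ} (ht : 0 ≤ t) :
    (1 + t + t ^ 2) / (1 + t ^ 2) ^ 5 ≤ 2 / (1 + t ^ 2) ^ 3 := by
  rw [div_le_div_iff₀ (by positivity) (by positivity)]
  have h : 1 + t + t ^ 2 ≤ 2 * (1 + t ^ 2) ^ 2 := by nlinarith [sq_nonneg (t - 1), sq_nonneg (t ^ 2)]
  calc (1 + t + t ^ 2) * (1 + t ^ 2) ^ 3 ≤ 2 * (1 + t ^ 2) ^ 2 * (1 + t ^ 2) ^ 3 := by gcongr
    _ = 2 * (1 + t ^ 2) ^ 5 := by ring

/-- Moving the centre of the regularised distance by `d` costs a factor `1 + d / ε`. -/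
theorem inv_move {a b d s ε L : ℝ} (hL : 1 ≤ L) (hε : 0 < ε) (hεs : ε ≤ s) (ha : 0 ≤ a) (hd : 0 ≤ d)
    (hb : 0 ≤ b) (htri : b ≤ L * (a + d)) :
    1 / Real.sqrt (a ^ 2 + s ^ 2) ≤ 3 * L * (1 + d / ε) / Real.sqrt (b ^ 2 + s ^ 2) := by
  have hs : 0 < s := hε.trans_le hεs
  set R := Real.sqrt (a ^ 2 + s ^ 2)
  set R' := Real.sqrt (b ^ 2 + s ^ 2)
  have hR : 0 < R := Real.sqrt_pos.2 (by positivity)
  have hR' : 0 < R' := Real.sqrt_pos.2 (by positivity)
  have hRa : a ≤ R := Real.le_sqrt_of_sq_le (by nlinarith)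
  have hRs : s ≤ R := Real.le_sqrt_of_sq_le (by nlinarith)
  have hR'1 : R' ≤ b + s := Real.sqrt_le_iff.2 ⟨by positivity, by nlinarith⟩
  have hdR : d ≤ d / ε * R := by
    rw [div_mul_eq_mul_div, le_div_iff₀ hε]
    exact mul_le_mul_of_nonneg_left (hεs.trans hRs) hd
  rw [div_le_div_iff₀ hR hR', one_mul]
  have h1 : R' ≤ L * (R + d / ε * R) + L * R := by
    nlinarith [mul_le_mul_of_nonneg_left (add_le_add hRa hdR) (zero_le_one.trans hL),
      le_mul_of_one_le_left hR.le hL]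
  nlinarith [mul_nonneg (mul_nonneg (zero_le_one.trans hL) (div_nonneg hd hε.le)) hR.le,
    mul_nonneg (zero_le_one.trans hL) hR.le]

/-- Summing the quadratic inequality: the cross term is absorbed. -/
theorem absorb_small {N c C X : ℝ} (hc : 0 < c) (hC : 0 ≤ C) {ε : ℝ} (hε : C * ε ^ 2 ≤ c / 2)
    (h : c * N ^ 2 ≤ X + C * ε ^ 2 * N ^ 2) : N ^ 2 ≤ 2 / c * X := by
  rw [div_mul_eq_mul_div, le_div_iff₀ hc]
  nlinarith [mul_le_mul_of_nonneg_right hε (sq_nonneg N)]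

end Vale.Agent.P204.Est
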