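import Mathlib
import Vale.Agent.P204.Est.Growth
import Vale.Agent.P204.Est.Tools

/-!
# P204: the a priori estimates, without forms and without a manifold

`X` is the space of points with its volume `vol` and a quasi-distance `r`; `Ω` carries the current
as a finite measure `m`, and `pr` is the foot point of an atom.
-/

open MeasureTheory Finset

namespace Vale.Agent.P204.Est

/-- The model kernel of width `ε` with decay exponent `n`. -/
noncomputable def ker (n : ℕ) (ε t : ℝ) : ℝ := 1 / ε ^ 4 / (1 + t ^ 2 / ε ^ 2) ^ n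

/-- A space with a quasi-distance and Ahlfors upper bound of dimension four. -/
structure Geom {X : Type*} [MeasurableSpace X] (vol : Measure X) (r : X → X → ℝ) (L A D : ℝ) :
    Prop where
  one_le : 1 ≤ L
  A_nonneg : 0 ≤ A
  meas : Measurable (Function.uncurry r)
  nonneg : ∀ x y, 0 ≤ r x y
  le_D : ∀ x y, r x y ≤ D
  symm : ∀ x y, r x y = r y x
  tri : ∀ x y z, r x z ≤ L * (r x y + r y z)
  ball : ∀ x t, 0 < t → vol.real {y | r x y ≤ t} ≤ A * t ^ 4

theorem ker_nonneg (n : ℕ) (ε t : ℝ) : 0 ≤ ker n ε t := by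
  have : 0 ≤ 1 / ε ^ 4 := one_div_nonneg.2 (by nlinarith [sq_nonneg (ε ^ 2)])
  exact div_nonneg this (by positivity)

theorem ker_le (n : ℕ) {ε : ℝ} (hε : 0 < ε) (t : ℝ) : ker n ε t ≤ 1 / ε ^ 4 :=
  div_le_self (by positivity) (one_le_pow₀ (le_add_of_nonneg_right (by positivity)))

theorem ker_mono {i n : ℕ} (h : i ≤ n) {ε : ℝ} (hε : 0 < ε) (t : ℝ) : ker n ε t ≤ ker i ε t :=
  div_le_div_of_nonneg_left (by positivity) (by positivity)
    (pow_le_pow_right₀ (le_add_of_nonneg_right (by positivity)) h)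

/-- One power of the distance is paid by one exponent. -/
theorem ker_mul_le (n : ℕ) {ε t : ℝ} (hε : 0 < ε) :
    t * ker (n + 1) ε t ≤ ε * ker n ε t := by
  have h : 0 < 1 + t ^ 2 / ε ^ 2 := by positivity
  have h1 : t ≤ ε * (1 + t ^ 2 / ε ^ 2) := by
    rw [mul_add, mul_one, ← mul_div_assoc, pow_two ε, mul_div_mul_left _ _ hε.ne']
    have h2 : t - ε ≤ t ^ 2 / ε := (le_div_iff₀ hε).2 (by nlinarith [sq_nonneg (t - ε)])
    linarith
  calc t * ker (n + 1) ε t = t / (1 + t ^ 2 / ε ^ 2) * ker n ε t := by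
        rw [ker, ker, pow_succ (1 + t ^ 2 / ε ^ 2) n]
        generalize 1 + t ^ 2 / ε ^ 2 = Q
        ring
    _ ≤ ε * ker n ε t :=
        mul_le_mul_of_nonneg_right ((div_le_iff₀ h).2 h1) (ker_nonneg _ _ _)

/-- Two powers of the distance are paid by one exponent. -/
theorem ker_mul_sq_le (n : ℕ) {ε : ℝ} (hε : 0 < ε) (t : ℝ) :
    t ^ 2 * ker (n + 1) ε t ≤ ε ^ 2 * ker n ε t := by
  have h : 0 < 1 + t ^ 2 / ε ^ 2 := by positivity
  have h1 : t ^ 2 ≤ ε ^ 2 * (1 + t ^ 2 / ε ^ 2) := by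
    rw [mul_add, mul_one, mul_div_cancel₀ _ (by positivity)]; nlinarith
  calc t ^ 2 * ker (n + 1) ε t = t ^ 2 / (1 + t ^ 2 / ε ^ 2) * ker n ε t := by
        rw [ker, ker, pow_succ (1 + t ^ 2 / ε ^ 2) n]
        generalize 1 + t ^ 2 / ε ^ 2 = Q
        ring
    _ ≤ ε ^ 2 * ker n ε t :=
        mul_le_mul_of_nonneg_right ((div_le_iff₀ h).2 h1) (ker_nonneg _ _ _)

variable {X Ω : Type*} [MeasurableSpace X] [MeasurableSpace Ω] {vol : Measure X} [IsFiniteMeasure vol]
  {m : Measure Ω} [IsFiniteMeasure m] {r : X → X → ℝ} {pr : Ω → X} {L A D : ℝ}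

/-- Quadratic ball growth of the current at radii at least `ε`. -/
def GrowthFrom (m : Measure Ω) (r : X → X → ℝ) (pr : Ω → X) (ε ν : ℝ) : Prop :=
  ∀ x t, ε ≤ t → m.real {p | r x (pr p) ≤ t} ≤ ν * t ^ 2

namespace Geom

variable (G : Geom vol r L A D)
include G

theorem meas_left (x : X) : Measurable (r x) := G.meas.comp measurable_prodMk_left

theorem meas_pr (hπ : Measurable pr) (x : X) : Measurable fun p => r x (pr p) :=
  (G.meas_left x).comp hπ

theorem ker_atoms (hπ : Measurable pr) {ε ν : ℝ} (hε : 0 < ε) (hν : GrowthFrom m r pr ε ν) (x : X) :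
    ∫ p, ker 3 ε (r x (pr p)) ∂m ≤ 128 * ν / ε ^ 2 := by
  have h := kernel_bound (μ := m) (G.meas_pr hπ x) (fun p => G.nonneg x _) (fun p => G.le_D x _)
    (show 2 ≤ 4 by norm_num) hε fun t ht => hν x t ht
  have e : ∀ p, ker 3 ε (r x (pr p)) = 1 / ε ^ 4 * (1 / (1 + r x (pr p) ^ 2 / ε ^ 2) ^ 3) :=
    fun p => by rw [ker, mul_one_div]
  simp only [e]
  rw [integral_const_mul]
  refine (mul_le_mul_of_nonneg_left h (by positivity)).trans_eq ?_
  field_simp

theorem ker_vol {ε : ℝ} (hε : 0 < ε) (x : X) : ∫ y, ker 3 ε (r x y) ∂vol ≤ 128 * A := by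
  have h := kernel_bound (μ := vol) (G.meas_left x) (fun p => G.nonneg x _) (fun p => G.le_D x _)
    le_rfl hε fun t ht => G.ball x t (hε.trans_le ht)
  have e : ∀ y, ker 3 ε (r x y) = 1 / ε ^ 4 * (1 / (1 + r x y ^ 2 / ε ^ 2) ^ 3) := fun y => by
    rw [ker, mul_one_div]
  simp only [e]
  rw [integral_const_mul]
  refine (mul_le_mul_of_nonneg_left h (by positivity)).trans_eq ?_
  field_simp

theorem meas_ker (hπ : Measurable pr) (n : ℕ) (ε : ℝ) :
    Measurable (Function.uncurry fun x p => ker n ε (r x (pr p))) := by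
  have : Measurable fun q : X × Ω => r q.1 (pr q.2) :=
    G.meas.comp (measurable_fst.prodMk (hπ.comp measurable_snd))
  show Measurable fun q : X × Ω => ker n ε (r q.1 (pr q.2))
  exact ((((this.pow_const 2).div_const (ε ^ 2)).const_add 1).pow_const n).const_div (1 / ε ^ 4)

/-- The `L²` size of the smoothed current. -/
theorem smoothing_sq (hπ : Measurable pr) {ε ν : ℝ} (hε : 0 < ε) (hν0 : 0 ≤ ν)
    (hν : GrowthFrom m r pr ε ν) :
    ∫ x, (∫ p, ker 3 ε (r x (pr p)) ∂m) ^ 2 ∂vol ≤ 128 ^ 2 * A * ν * m.real Set.univ / ε ^ 2 := by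
  refine (schur_sq (K := 1 / ε ^ 4) (G.meas_ker hπ 3 ε).stronglyMeasurable (fun x p => ker_le 3 hε _)
    (fun x p => ker_nonneg _ _ _) (G.ker_atoms hπ hε hν)
    (fun p => (le_of_eq (integral_congr_ae (ae_of_all _ fun x =>
      congrArg (ker 3 ε) (G.symm x (pr p))))).trans (G.ker_vol hε (pr p))) (by positivity)).trans_eq ?_
  ring

/-- Pairing a square integrable function with a smoothed current. -/
theorem cross (hπ : Measurable pr) {ε ν K N : ℝ} (hε : 0 < ε) (hν0 : 0 ≤ ν) (hK : 0 ≤ K)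
    (hν : GrowthFrom m r pr ε ν) {f a : X → ℝ} (hf : MemLp f 2 vol) (ha : AEStronglyMeasurable a vol)
    (hab : ∀ x, |a x| ≤ K * ∫ p, ker 3 ε (r x (pr p)) ∂m) (hN : Real.sqrt (∫ x, f x ^ 2 ∂vol) ≤ N) :
    |∫ x, f x * a x ∂vol| ≤ N * K * (128 * Real.sqrt A / ε) * Real.sqrt (ν * m.real Set.univ) := by
  have hN0 : 0 ≤ N := (Real.sqrt_nonneg _).trans hN
  set F := fun x => ∫ p, ker 3 ε (r x (pr p)) ∂m
  have hFm : StronglyMeasurable F := (G.meas_ker hπ 3 ε).stronglyMeasurable.integral_prod_right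
  have hFb : ∀ x, |F x| ≤ 128 * ν / ε ^ 2 := fun x => by
    rw [abs_of_nonneg (integral_nonneg fun p => ker_nonneg _ _ _)]
    exact G.ker_atoms hπ hε hν x
  have hF2 : MemLp F 2 vol := MemLp.of_bound hFm.aestronglyMeasurable _ (ae_of_all _ hFb)
  have haL : MemLp a 2 vol := MemLp.of_bound ha (K * (128 * ν / ε ^ 2)) (ae_of_all _ fun x => by
    rw [Real.norm_eq_abs]
    exact (hab x).trans (mul_le_mul_of_nonneg_left ((le_abs_self _).trans (hFb x)) hK))
  refine (abs_integral_mul_le hf haL).trans ?_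
  have h1 : ∫ x, a x ^ 2 ∂vol ≤ K ^ 2 * (128 ^ 2 * A * ν * m.real Set.univ / ε ^ 2) := by
    refine (integral_mono_of_nonneg (ae_of_all _ fun x => sq_nonneg _)
      (hF2.integrable_sq.const_mul (K ^ 2)) (ae_of_all _ fun x => ?_)).trans ?_
    · show a x ^ 2 ≤ K ^ 2 * F x ^ 2
      rw [← mul_pow, ← sq_abs (a x)]
      exact pow_le_pow_left₀ (abs_nonneg _) (hab x) 2
    · rw [integral_const_mul]
      exact mul_le_mul_of_nonneg_left (G.smoothing_sq hπ hε hν0 hν) (sq_nonneg K)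
  have hA := G.A_nonneg
  have h2 : Real.sqrt (∫ x, a x ^ 2 ∂vol)
      ≤ K * (128 * Real.sqrt A / ε) * Real.sqrt (ν * m.real Set.univ) := by
    refine Real.sqrt_le_iff.2 ⟨by positivity, h1.trans_eq ?_⟩
    rw [mul_pow, mul_pow, div_pow, mul_pow, Real.sq_sqrt hA,
      Real.sq_sqrt (mul_nonneg hν0 measureReal_nonneg)]
    ring
  refine (mul_le_mul hN h2 (Real.sqrt_nonneg _) hN0).trans_eq ?_
  ring

/-- The diagonal error of the quadratic inequality. -/
theorem pair_bound (hπ : Measurable pr) {ε ν : ℝ} (hε : 0 < ε) (hν : GrowthFrom m r pr ε ν) :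
    ∫ p, ∫ q, ε ^ 2 * ker 3 ε (r (pr p) (pr q)) ∂m ∂m ≤ 128 * ν * m.real Set.univ := by
  refine (integral_mono_of_nonneg (g := fun _ => 128 * ν)
    (ae_of_all _ fun p => integral_nonneg fun q => mul_nonneg (sq_nonneg _) (ker_nonneg _ _ _))
    (integrable_const _) (ae_of_all _ fun p => ?_)).trans_eq ?_
  · show ∫ q, ε ^ 2 * ker 3 ε (r (pr p) (pr q)) ∂m ≤ 128 * ν
    rw [integral_const_mul]
    refine (mul_le_mul_of_nonneg_left (G.ker_atoms hπ hε hν (pr p)) (sq_nonneg ε)).trans_eq ?_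
    field_simp
  · rw [integral_const, smul_eq_mul, mul_comm]

theorem pot_atoms_from (hπ : Measurable pr) {ε ν s r₁ : ℝ} (hν0 : 0 ≤ ν)
    (hν : GrowthFrom m r pr ε ν) (hε : 0 < ε) (hs : ε ≤ s) (h₁ : 0 < r₁) (x : X) :
    ∫ p, 1 / Real.sqrt (r x (pr p) ^ 2 + s ^ 2) ∂m ≤ m.real Set.univ / r₁ + 8 * ν * r₁ := by
  have h := potential_bound (μ := m) (G.meas_pr hπ x) (fun p => G.nonneg x _) 1 (hε.trans_le hs) h₁
    hν0 fun t ht _ => hν x t (hs.trans ht)
  simp only [pow_one] at h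
  linarith

/-- The square of the first Riesz potential of the volume. -/
theorem pot_vol {s : ℝ} (hs : 0 < s) (x : X) :
    ∫ y, 1 / Real.sqrt (r x y ^ 2 + s ^ 2) ^ 2 ∂vol ≤ vol.real Set.univ + 32 * A := by
  have h := potential_bound (μ := vol) (G.meas_left x) (fun p => G.nonneg x _) 2 hs one_pos
    (show 0 ≤ 2 * A by linarith [G.A_nonneg]) fun t ht ht2 => by
      refine (G.ball x t (hs.trans_le ht)).trans ?_
      have h3 : 0 ≤ A * t ^ 3 := mul_nonneg G.A_nonneg (pow_nonneg (hs.le.trans ht) 3)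
      calc A * t ^ 4 = A * t ^ 3 * t := by ring
        _ ≤ A * t ^ 3 * 2 := mul_le_mul_of_nonneg_left (by linarith) h3
        _ = 2 * A * t ^ (2 + 1) := by ring
  simp only [one_pow, div_one, mul_one] at h
  linarith

/-- The square of `r_s⁻²`, in terms of the scale. -/
theorem pot_vol_four {s : ℝ} (hs : 0 < s) (x : X) :
    ∫ y, 1 / Real.sqrt (r x y ^ 2 + s ^ 2) ^ 4 ∂vol ≤ (vol.real Set.univ + 32 * A) / s ^ 2 := by
  have hR : ∀ y, s ≤ Real.sqrt (r x y ^ 2 + s ^ 2) := fun y =>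
    Real.le_sqrt_of_sq_le (by nlinarith [sq_nonneg (r x y)])
  have hi : Integrable (fun y => 1 / s ^ 2 * (1 / Real.sqrt (r x y ^ 2 + s ^ 2) ^ 2)) vol := by
    refine Integrable.of_bound ?_ (1 / s ^ 2 * (1 / s ^ 2)) (ae_of_all _ fun y => ?_)
    · have := G.meas_left x
      exact Measurable.aestronglyMeasurable (by fun_prop)
    · rw [Real.norm_eq_abs, abs_of_nonneg (by positivity)]
      gcongr
      exact hR y
  refine (integral_mono_of_nonneg (ae_of_all _ fun y => by positivity) hi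
    (ae_of_all _ fun y => ?_)).trans ?_
  · show 1 / Real.sqrt (r x y ^ 2 + s ^ 2) ^ 4 ≤ 1 / s ^ 2 * (1 / Real.sqrt (r x y ^ 2 + s ^ 2) ^ 2)
    rw [one_div_mul_one_div]
    refine one_div_le_one_div_of_le (by have := hs.trans_le (hR y); positivity) ?_
    calc s ^ 2 * Real.sqrt (r x y ^ 2 + s ^ 2) ^ 2
        ≤ Real.sqrt (r x y ^ 2 + s ^ 2) ^ 2 * Real.sqrt (r x y ^ 2 + s ^ 2) ^ 2 := by gcongr; exact hR y
      _ = _ := by ring
  · rw [integral_const_mul, one_div_mul_eq_div]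
    exact div_le_div_of_nonneg_right (G.pot_vol hs x) (by positivity)

/-- The test inequality: `F` is the density of the current on a smoothed test form centred at `x`. -/
theorem test_bound (hπ : Measurable pr) {ε s c C N : ℝ} (hc : 0 < c) (hC : 0 ≤ C) (hε : 0 < ε)
    (hεs : ε ≤ s) (x : X) {F : Ω → ℝ} (hF : Integrable F m) (w : Ω → X → ℝ)
    (hwm : ∀ p, Measurable (w p)) (hw0 : ∀ p y, 0 ≤ w p y)
    (hw : ∀ p y, w p y ≤ C * ker 4 ε (r (pr p) y)) (hw1 : ∀ p, c ≤ ∫ y, w p y ∂vol)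
    (hlow : ∀ p, c * (∫ y, w p y * (s ^ 2 / Real.sqrt (r x y ^ 2 + s ^ 2) ^ 4) ∂vol)
      - C * (∫ y, ker 4 ε (r (pr p) y) / Real.sqrt (r x y ^ 2 + s ^ 2) ∂vol) ≤ F p)
    (hFN : ∫ p, F p ∂m ≤ N) :
    c * c / (4 * L ^ 2 * (2 + C * 128 * A / c)) ^ 2 / s ^ 2 * m.real {p | r x (pr p) ≤ s}
      ≤ N + C * (768 * L * A) * ∫ p, 1 / Real.sqrt (r x (pr p) ^ 2 + s ^ 2) ∂m := by
  classical
  have hs : 0 < s := hε.trans_le hεs
  have hL := G.one_le
  have hA := G.A_nonneg
  set R : X → ℝ := fun y => Real.sqrt (r x y ^ 2 + s ^ 2)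
  have hR : ∀ y, s ≤ R y := fun y => Real.le_sqrt_of_sq_le (by nlinarith [sq_nonneg (r x y)])
  have hRm : Measurable R := by have := G.meas_left x; fun_prop
  set K := (4 * L ^ 2 * (2 + C * 128 * A / c)) with hK
  have hK0 : 0 < K := by positivity
  set B : Set Ω := {p | r x (pr p) ≤ s}
  have hB : MeasurableSet B := measurableSet_le (G.meas_pr hπ x) measurable_const
  have hkm : ∀ (n : ℕ) (z : X), Measurable fun y => ker n ε (r z y) := fun n z => by
    have := G.meas_left z; unfold ker; fun_prop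
  -- the error term
  have herr : ∀ p, (∫ y, ker 4 ε (r (pr p) y) / R y ∂vol) ≤ 768 * L * A * (1 / R (pr p)) := fun p => by
    have hpt : ∀ y, ker 4 ε (r (pr p) y) / R y ≤ 6 * L / R (pr p) * ker 3 ε (r (pr p) y) := fun y => by
      have h := inv_move hL hε hεs (G.nonneg x y) (G.nonneg (pr p) y) (G.nonneg x (pr p))
        (b := r x (pr p)) (by rw [G.symm (pr p) y]; exact G.tri x y (pr p))
      have h2 : (1 + r (pr p) y / ε) * ker 4 ε (r (pr p) y) ≤ 2 * ker 3 ε (r (pr p) y) := by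
        have h4 := ker_mono (show 3 ≤ 4 by norm_num) hε (r (pr p) y)
        have h5 := ker_mul_le 3 hε (t := r (pr p) y)
        have h6 : r (pr p) y / ε * ker 4 ε (r (pr p) y) ≤ ker 3 ε (r (pr p) y) := by
          rw [div_mul_eq_mul_div, div_le_iff₀ hε]; linarith
        linarith
      calc ker 4 ε (r (pr p) y) / R y = ker 4 ε (r (pr p) y) * (1 / R y) := (mul_one_div _ _).symm
        _ ≤ ker 4 ε (r (pr p) y) * (3 * L * (1 + r (pr p) y / ε) / R (pr p)) :=
            mul_le_mul_of_nonneg_left h (ker_nonneg _ _ _)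
        _ = 3 * L / R (pr p) * ((1 + r (pr p) y / ε) * ker 4 ε (r (pr p) y)) := by ring
        _ ≤ 3 * L / R (pr p) * (2 * ker 3 ε (r (pr p) y)) :=
            mul_le_mul_of_nonneg_left h2 (div_nonneg (by linarith) (hs.le.trans (hR _)))
        _ = _ := by ring
    refine (integral_mono_of_nonneg
      (ae_of_all _ fun y => div_nonneg (ker_nonneg _ _ _) (hs.le.trans (hR y)))
      ((Integrable.of_bound ((hkm 3 (pr p)).aestronglyMeasurable) (1 / ε ^ 4) (ae_of_all _ fun y => by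
        rw [Real.norm_eq_abs, abs_of_nonneg (ker_nonneg _ _ _)]; exact ker_le 3 hε _)).const_mul _)
      (ae_of_all _ hpt)).trans ?_
    rw [integral_const_mul]
    refine (mul_le_mul_of_nonneg_left (G.ker_vol hε (pr p))
      (div_nonneg (by linarith) (hs.le.trans (hR _)))).trans_eq ?_
    ring
  -- the main term near the centre
  have hmain : ∀ p ∈ B, c / K ^ 2 / s ^ 2 ≤ ∫ y, w p y * (s ^ 2 / R y ^ 4) ∂vol := fun p hp => by
    set M₀ := ∫ y, w p y ∂vol
    have hM0 : 0 < M₀ := hc.trans_le (hw1 p)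
    have iw : Integrable (w p) vol := Integrable.of_bound (hwm p).aestronglyMeasurable (C * (1 / ε ^ 4))
      (ae_of_all _ fun y => by
        rw [Real.norm_eq_abs, abs_of_nonneg (hw0 p y)]
        exact (hw p y).trans (mul_le_mul_of_nonneg_left (ker_le 4 hε _) hC))
    have iwR : ∀ f : X → ℝ, Measurable f → (∃ b, ∀ y, |f y| ≤ b) →
        Integrable (fun y => w p y * f y) vol := fun f hf ⟨b, hb⟩ =>
      iw.mul_bdd hf.aestronglyMeasurable (ae_of_all _ hb)
    have hr2 : ∫ y, w p y * r (pr p) y ^ 2 ∂vol ≤ C * ε ^ 2 * (128 * A) := by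
      refine (integral_mono_of_nonneg (ae_of_all _ fun y => mul_nonneg (hw0 p y) (sq_nonneg _))
        ((Integrable.of_bound ((hkm 3 (pr p)).aestronglyMeasurable) (1 / ε ^ 4) (ae_of_all _ fun y => by
          rw [Real.norm_eq_abs, abs_of_nonneg (ker_nonneg _ _ _)]; exact ker_le 3 hε _)).const_mul
            (C * ε ^ 2)) (ae_of_all _ fun y => ?_)).trans ?_
      · show w p y * r (pr p) y ^ 2 ≤ C * ε ^ 2 * ker 3 ε (r (pr p) y)
        calc w p y * r (pr p) y ^ 2 ≤ C * ker 4 ε (r (pr p) y) * r (pr p) y ^ 2 :=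
              mul_le_mul_of_nonneg_right (hw p y) (sq_nonneg _)
          _ = C * (r (pr p) y ^ 2 * ker 4 ε (r (pr p) y)) := by ring
          _ ≤ C * (ε ^ 2 * ker 3 ε (r (pr p) y)) := mul_le_mul_of_nonneg_left (ker_mul_sq_le 3 hε _) hC
          _ = _ := by ring
      · rw [integral_const_mul]
        exact mul_le_mul_of_nonneg_left (G.ker_vol hε (pr p)) (by positivity)
    have hR2 : ∀ y, R y ^ 2 ≤ 3 * L ^ 2 * s ^ 2 + 2 * L ^ 2 * r (pr p) y ^ 2 := fun y => by
      simp only [R]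
      rw [Real.sq_sqrt (by positivity)]
      have h1 : r x y ≤ L * (s + r (pr p) y) :=
        (G.tri x (pr p) y).trans (mul_le_mul_of_nonneg_left (by linarith [show r x (pr p) ≤ s from hp])
          (by linarith))
      have h2 := pow_le_pow_left₀ (G.nonneg x y) h1 2
      nlinarith [mul_nonneg (sq_nonneg L) (sq_nonneg (s - r (pr p) y)),
        mul_le_mul_of_nonneg_right (one_le_pow₀ hL (n := 2)) (sq_nonneg s)]
    have hD : 0 ≤ D := (G.nonneg x (pr p)).trans (G.le_D x (pr p))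
    have hRb : ∃ b, ∀ y, |R y ^ 2| ≤ b := ⟨D ^ 2 + s ^ 2, fun y => by
      rw [abs_of_nonneg (sq_nonneg _)]; simp only [R]
      rw [Real.sq_sqrt (by positivity)]
      nlinarith [pow_le_pow_left₀ (G.nonneg x y) (G.le_D x y) 2]⟩
    have hgb : ∃ b, ∀ y, |1 / (R y ^ 2) ^ 2| ≤ b := ⟨1 / (s ^ 2) ^ 2, fun y => by
      rw [abs_of_nonneg (by positivity)]
      have := hR y
      gcongr⟩
    have hmean : ∫ y, w p y / M₀ * R y ^ 2 ∂vol ≤ K * s ^ 2 := by
      have e : ∀ y, w p y / M₀ * R y ^ 2 = 1 / M₀ * (w p y * R y ^ 2) := fun y => by ring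
      simp only [e]
      rw [integral_const_mul]
      have hint : ∫ y, w p y * R y ^ 2 ∂vol ≤ 3 * L ^ 2 * s ^ 2 * M₀ + 2 * L ^ 2 * (C * ε ^ 2 * (128 * A)) := by
        have i2 : Integrable (fun y => w p y * r (pr p) y ^ 2) vol :=
          iwR _ ((G.meas_left (pr p)).pow_const 2) ⟨D ^ 2, fun y => by
            rw [abs_of_nonneg (sq_nonneg _)]
            exact pow_le_pow_left₀ (G.nonneg _ _) (G.le_D _ _) 2⟩
        refine (integral_mono (iwR _ (hRm.pow_const 2) hRb)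
          ((iw.const_mul (3 * L ^ 2 * s ^ 2)).fun_add (i2.const_mul (2 * L ^ 2))) fun y => ?_).trans ?_
        · show w p y * R y ^ 2 ≤ _
          refine (mul_le_mul_of_nonneg_left (hR2 y) (hw0 p y)).trans_eq ?_
          ring
        · rw [integral_add (iw.const_mul _) (i2.const_mul _), integral_const_mul, integral_const_mul]
          exact add_le_add le_rfl (mul_le_mul_of_nonneg_left hr2 (by positivity))
      refine (mul_le_mul_of_nonneg_left hint (by positivity)).trans ?_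
      rw [one_div_mul_eq_div, div_le_iff₀ hM0]
      have hε2 : ε ^ 2 ≤ s ^ 2 := pow_le_pow_left₀ hε.le hεs 2
      have hrat : C * ε ^ 2 * (128 * A) ≤ C * 128 * A / c * s ^ 2 * M₀ := by
        rw [div_mul_eq_mul_div, div_mul_eq_mul_div, le_div_iff₀ hc]
        calc C * ε ^ 2 * (128 * A) * c ≤ C * s ^ 2 * (128 * A) * M₀ := by gcongr; exact hw1 p
          _ = _ := by ring
      simp only [K]
      nlinarith [mul_le_mul_of_nonneg_left hrat (show 0 ≤ 2 * L ^ 2 by positivity),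
        show 0 ≤ L ^ 2 * s ^ 2 * M₀ by positivity,
        show 0 ≤ L ^ 2 * (C * 128 * A / c) * s ^ 2 * M₀ by positivity]
    have hlow' := inv_sq_lower (μ := vol) (w := fun y => w p y / M₀) (f := fun y => R y ^ 2)
      (show 0 < K * s ^ 2 by positivity) (fun y => div_nonneg (hw0 p y) hM0.le)
      (fun y => pow_pos (hs.trans_le (hR y)) 2) (iw.div_const _)
      (by rw [integral_div]; exact div_self hM0.ne')
      (((iwR _ (hRm.pow_const 2) hRb).div_const M₀).congr (ae_of_all _ fun y => by ring))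
      (((iwR _ (((hRm.pow_const 2).pow_const 2).const_div 1) hgb).div_const M₀).congr
        (ae_of_all _ fun y => by field_simp)) hmean
    have e : ∫ y, w p y / M₀ / (R y ^ 2) ^ 2 ∂vol = 1 / (M₀ * s ^ 2) * ∫ y, w p y * (s ^ 2 / R y ^ 4) ∂vol := by
      rw [← integral_const_mul]
      refine integral_congr_ae (ae_of_all _ fun y => ?_)
      have := hs.trans_le (hR y)
      field_simp
    rw [e] at hlow'
    have hX := mul_le_mul_of_nonneg_left hlow' (show 0 ≤ M₀ * s ^ 2 by positivity)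
    rw [← mul_assoc, mul_one_div_cancel (by positivity), one_mul] at hX
    refine le_trans ?_ hX
    have e2 : M₀ * s ^ 2 * (1 / (K * s ^ 2) ^ 2) = M₀ / K ^ 2 / s ^ 2 := by field_simp
    rw [e2]
    gcongr
    exact hw1 p
  -- integrate
  have hpw : ∀ p, B.indicator (fun _ => c * c / K ^ 2 / s ^ 2) p - C * (768 * L * A) * (1 / R (pr p))
      ≤ F p := fun p => by
    refine le_trans (sub_le_sub ?_ ?_) (hlow p)
    · by_cases hp : p ∈ B
      · rw [Set.indicator_of_mem hp]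
        refine (le_of_eq ?_).trans (mul_le_mul_of_nonneg_left (hmain p hp) hc.le)
        ring
      · rw [Set.indicator_of_notMem hp]
        exact mul_nonneg hc.le (integral_nonneg fun y => mul_nonneg (hw0 p y) (by positivity))
    · exact (mul_le_mul_of_nonneg_left (herr p) hC).trans_eq (by ring)
  have i1 : Integrable (B.indicator fun _ => c * c / K ^ 2 / s ^ 2) m := (integrable_const _).indicator hB
  have i2 : Integrable (fun p => 1 / R (pr p)) m :=
    Integrable.of_bound (((hRm.comp hπ).const_div 1).aestronglyMeasurable) (1 / s) (ae_of_all _ fun p => by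
      rw [Real.norm_eq_abs, abs_of_nonneg (one_div_nonneg.2 (hs.le.trans (hR _)))]
      exact one_div_le_one_div_of_le hs (hR _))
  have h := (integral_mono (i1.sub (i2.const_mul (C * (768 * L * A)))) hF hpw).trans hFN
  simp only [Pi.sub_apply] at h
  rw [integral_sub i1 (i2.const_mul _), integral_const_mul, integral_indicator_const _ hB, smul_eq_mul,
    mul_comm (m.real B)] at h
  linarith

/-- Uniform bounds from the quadratic inequality and the test inequality at every scale. -/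
theorem core (hπ : Measurable pr) [Nonempty X] {ε₀ C : ℝ} (hε₀ : 0 < ε₀) (N off : ℝ → ℝ)
    (hN : ∀ ε, 0 < ε → ε ≤ ε₀ → 0 ≤ N ε) (hoff : ∀ ε, 0 < ε → ε ≤ ε₀ → 0 ≤ off ε)
    (hQ : ∀ ε ν, 0 < ε → ε ≤ ε₀ → 0 ≤ ν → GrowthFrom m r pr ε ν →
      N ε ^ 2 + off ε ≤ C * (ν * m.real Set.univ + N ε * Real.sqrt (ν * m.real Set.univ)))
    (hS : ∀ ε s x, 0 < ε → ε ≤ s → s ≤ ε₀ → m.real {p | r x (pr p) ≤ s}
      ≤ C * s ^ 2 * (N ε + m.real Set.univ + ∫ p, 1 / Real.sqrt (r x (pr p) ^ 2 + s ^ 2) ∂m)) :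
    ∃ B : ℝ, 0 ≤ B ∧ (∀ ε, 0 < ε → ε ≤ ε₀ → N ε ≤ B ∧ off ε ≤ B) ∧
      ∀ x t, 0 < t → m.real {p | r x (pr p) ≤ t} ≤ B * t ^ 2 := by
  set M := m.real Set.univ
  have hM : 0 ≤ M := measureReal_nonneg
  set C₁ := max C 0
  have hC₁ : C ≤ C₁ := le_max_left _ _
  have hC₁0 : 0 ≤ C₁ := le_max_right _ _
  obtain ⟨B, hB⟩ := bootstrap M (8 * C₁ + 1 + 1 / ε₀ ^ 2) hM
    (by linarith [show 0 ≤ 1 / ε₀ ^ 2 by positivity])
  set C₂ := 8 * C₁ + 1 + 1 / ε₀ ^ 2
  have hC₂ : C₁ ≤ C₂ := by simp only [C₂]; linarith [show 0 ≤ 1 / ε₀ ^ 2 by positivity]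
  have hC₂0 : 0 ≤ C₂ := hC₁0.trans hC₂
  have main : ∀ ε, 0 < ε → ε ≤ ε₀ → ∃ ν, 0 ≤ ν ∧ GrowthFrom m r pr ε ν ∧ ν ≤ B ∧ N ε ≤ B := by
    intro ε hε hεle
    obtain ⟨ν, hν0, hν, hmin⟩ := exists_growth (μ := m) (fun x p => r x (pr p)) hε
    have hNn := hN ε hε hεle
    have hrhs : 0 ≤ ν * M + N ε * Real.sqrt (ν * M) := by positivity
    refine ⟨ν, hν0, hν, ?_⟩
    obtain ⟨h1, h2⟩ := hB (N ε) ν hNn hν0
      ((le_add_of_nonneg_right (hoff ε hε hεle)).trans ((hQ ε ν hε hεle hν0 hν).trans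
        (mul_le_mul_of_nonneg_right (hC₁.trans hC₂) hrhs))) fun r₁ hr₁ hr₁' => by
      have hMr : M ≤ M / r₁ := by rw [le_div_iff₀ hr₁]; nlinarith
      refine hmin _ fun x t ht => ?_
      rcases le_or_gt t ε₀ with ht0 | ht0
      · have hp := G.pot_atoms_from hπ hν0 hν hε ht hr₁ x
        have hI : 0 ≤ ∫ p, 1 / Real.sqrt (r x (pr p) ^ 2 + t ^ 2) ∂m :=
          integral_nonneg fun p => by positivity
        refine (hS ε t x hε ht ht0).trans ?_
        calc C * t ^ 2 * (N ε + M + ∫ p, 1 / Real.sqrt (r x (pr p) ^ 2 + t ^ 2) ∂m)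
            ≤ C₁ * t ^ 2 * (8 * (N ε + M + ν * r₁ + M / r₁)) := by
              refine mul_le_mul (mul_le_mul_of_nonneg_right hC₁ (sq_nonneg t)) ?_
                (add_nonneg (add_nonneg hNn hM) hI) (by positivity)
              linarith [show 0 ≤ ν * r₁ by positivity]
          _ = 8 * C₁ * (N ε + M + ν * r₁ + M / r₁) * t ^ 2 := by ring
          _ ≤ C₂ * (N ε + M + ν * r₁ + M / r₁) * t ^ 2 := by
              gcongr
              simp only [C₂]; linarith [show 0 ≤ 1 / ε₀ ^ 2 by positivity]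
      · refine (measureReal_mono (Set.subset_univ _)).trans ?_
        calc M = 1 / ε₀ ^ 2 * M * ε₀ ^ 2 := by field_simp
          _ ≤ C₂ * (N ε + M + ν * r₁ + M / r₁) * t ^ 2 := by
              refine mul_le_mul ?_ (pow_le_pow_left₀ hε₀.le ht0.le 2) (by positivity) (by positivity)
              refine mul_le_mul ?_ (by linarith [show 0 ≤ ν * r₁ by positivity]) hM hC₂0
              simp only [C₂]; linarith
    exact ⟨h2, h1⟩
  obtain ⟨ν₀, hν₀, -, hνB, -⟩ := main ε₀ hε₀ le_rfl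
  have hB0 : 0 ≤ B := hν₀.trans hνB
  refine ⟨B + C₁ * (B * M + B * Real.sqrt (B * M)), by positivity, fun ε hε hεle => ?_, fun x t ht => ?_⟩
  · obtain ⟨ν, hν0, hν, hνB', hNB⟩ := main ε hε hεle
    refine ⟨hNB.trans (le_add_of_nonneg_right (by positivity)), ?_⟩
    have hb := hQ ε ν hε hεle hν0 hν
    have h1 : ν * M + N ε * Real.sqrt (ν * M) ≤ B * M + B * Real.sqrt (B * M) := by gcongr
    have h2 : 0 ≤ ν * M + N ε * Real.sqrt (ν * M) :=
      add_nonneg (mul_nonneg hν0 hM) (mul_nonneg (hN ε hε hεle) (Real.sqrt_nonneg _))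
    have h3 := mul_le_mul hC₁ h1 h2 hC₁0
    linarith [sq_nonneg (N ε)]
  · obtain ⟨ν, hν0, hν, hνB', -⟩ := main (min t ε₀) (lt_min ht hε₀) (min_le_right _ _)
    refine (hν x t (min_le_left _ _)).trans (mul_le_mul_of_nonneg_right ?_ (sq_nonneg t))
    exact hνB'.trans (le_add_of_nonneg_right (by positivity))

/-- From one bound per scale to the logarithmic bound. -/
theorem log_bound (hπ : Measurable pr) {c B F₀ ε₁ : ℝ} (hc : 0 < c) (hB : 0 ≤ B) (hε₁ : 0 < ε₁)
    {F : Ω → Ω → ℝ} (hFm : Measurable (Function.uncurry F)) (hF0 : ∀ p q, 0 ≤ F p q)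
    (hFb : ∀ p q, F p q ≤ F₀) {k : ℝ → Ω → Ω → ℝ}
    (hkm : ∀ e, 0 < e → e ≤ ε₁ → Measurable (Function.uncurry (k e)))
    (hkb : ∀ e, 0 < e → e ≤ ε₁ → ∃ b, ∀ p q, k e p q ≤ b)
    (hk0 : ∀ e p q, 0 < e → e ≤ ε₁ → 0 ≤ k e p q)
    (hk : ∀ e p q, 0 < e → e ≤ ε₁ → r (pr p) (pr q) ≤ e → c / e ^ 4 ≤ k e p q)
    (hoff : ∀ e, 0 < e → e ≤ ε₁ → ∫ p, ∫ q, k e p q * F p q ∂m ∂m ≤ B) :
    ∃ B', ∀ s, 0 < s → s ≤ 1 / 2 →
      ∫ p, ∫ q, F p q / Real.sqrt (r (pr p) (pr q) ^ 2 + s ^ 2) ^ 4 ∂m ∂m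
        ≤ B' * Real.log (1 / s) := by
  classical
  rcases eq_or_ne m 0 with rfl | hm
  · exact ⟨0, fun s _ _ => by simp⟩
  have hne : Nonempty Ω := by
    by_contra h
    have := not_nonempty_iff.1 h
    exact hm m.eq_zero_of_isEmpty
  obtain ⟨p₀⟩ := hne
  have hF₀ : 0 ≤ F₀ := (hF0 p₀ p₀).trans (hFb p₀ p₀)
  set M := m.real Set.univ
  set T := max 1 (1 / ε₁ ^ 4)
  refine ⟨(16 / c * B + 16 * T * F₀ * M ^ 2) * 5 + 2 * F₀ * M ^ 2, fun s hs hs2 => ?_⟩
  obtain ⟨S, hS, hcard, hcov⟩ := log_scales hs hs2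
  have hrm : Measurable fun q : Ω × Ω => r (pr q.1) (pr q.2) :=
    G.meas.comp ((hπ.comp measurable_fst).prodMk (hπ.comp measurable_snd))
  set kk : ℝ → Ω × Ω → ℝ := fun e q =>
    if e ≤ ε₁ then 16 / c * (k e q.1 q.2 * F q.1 q.2) else 16 * T * F₀
  have hkkm : ∀ e ∈ S, Integrable (kk e) (m.prod m) := fun e he => by
    by_cases h : e ≤ ε₁
    · obtain ⟨b, hb⟩ := hkb e (hS e he).1 h
      simp only [kk, h, if_true]
      refine Integrable.const_mul (Integrable.of_bound (((hkm e (hS e he).1 h).mul hFm).aestronglyMeasurable)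
        (b * F₀) (ae_of_all _ fun q => ?_)) _
      show |k e q.1 q.2 * F q.1 q.2| ≤ b * F₀
      rw [ abs_of_nonneg (mul_nonneg (hk0 e _ _ (hS e he).1 h) (hF0 _ _))]
      exact mul_le_mul (hb _ _) (hFb _ _) (hF0 _ _) ((hk0 e q.1 q.2 (hS e he).1 h).trans (hb _ _))
    · simp only [kk, h, if_false]; exact integrable_const _
  have hkk0 : ∀ e ∈ S, ∀ q, 0 ≤ kk e q := fun e he q => by
    by_cases h : e ≤ ε₁
    · simp only [kk, h, if_true]
      exact mul_nonneg (by positivity) (mul_nonneg (hk0 e _ _ (hS e he).1 h) (hF0 _ _))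
    · simp only [kk, h, if_false]; positivity
  have hpt : ∀ q : Ω × Ω, F q.1 q.2 / Real.sqrt (r (pr q.1) (pr q.2) ^ 2 + s ^ 2) ^ 4
      ≤ F₀ + ∑ e ∈ S, kk e q := fun q => by
    set t := r (pr q.1) (pr q.2)
    set R := Real.sqrt (t ^ 2 + s ^ 2)
    have hR : 0 < R := Real.sqrt_pos.2 (by positivity)
    have ht0 : 0 ≤ t := G.nonneg _ _
    rcases le_or_gt t 1 with ht | ht
    · obtain ⟨e, he, hte, he2⟩ := hcov t ht0 ht
      obtain ⟨hepos, -⟩ := hS e he
      refine le_trans ?_ (le_add_of_nonneg_left hF₀)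
      refine le_trans ?_ (single_le_sum (f := fun e => kk e q) (fun i hi => hkk0 i hi q) he)
      have h4 : e ^ 4 / 16 ≤ R ^ 4 := by
        have := pow_le_pow_left₀ hepos.le he2 4
        rw [mul_pow] at this; linarith
      refine (div_le_div_of_nonneg_left (hF0 _ _) (by positivity) h4).trans ?_
      by_cases h : e ≤ ε₁
      · simp only [kk, h, if_true]
        rw [div_div_eq_mul_div, ← mul_assoc, div_le_iff₀ (pow_pos hepos 4)]
        have hh := hk e q.1 q.2 hepos h hte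
        rw [div_le_iff₀ (pow_pos hepos 4)] at hh
        calc F q.1 q.2 * 16 = 16 / c * c * F q.1 q.2 := by field_simp
          _ ≤ 16 / c * (k e q.1 q.2 * e ^ 4) * F q.1 q.2 := by
              refine mul_le_mul_of_nonneg_right (mul_le_mul_of_nonneg_left hh (by positivity)) (hF0 _ _)
          _ = _ := by ring
      · simp only [kk, h, if_false]
        have he1 : 1 / e ^ 4 ≤ T := le_max_of_le_right
          (one_div_le_one_div_of_le (by positivity) (pow_le_pow_left₀ hε₁.le (not_le.1 h).le 4))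
        calc F q.1 q.2 / (e ^ 4 / 16) = 16 * (1 / e ^ 4) * F q.1 q.2 := by field_simp
          _ ≤ 16 * T * F₀ := mul_le_mul (mul_le_mul_of_nonneg_left he1 (by norm_num)) (hFb _ _)
              (hF0 _ _) (by positivity)
    · have hR1 : 1 ≤ R := ht.le.trans (Real.le_sqrt_of_sq_le (by nlinarith))
      exact ((div_le_self (hF0 _ _) (one_le_pow₀ hR1)).trans (hFb _ _)).trans
        (le_add_of_nonneg_right (sum_nonneg fun e he => hkk0 e he q))
  have hG : Integrable (fun q : Ω × Ω =>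
      F q.1 q.2 / Real.sqrt (r (pr q.1) (pr q.2) ^ 2 + s ^ 2) ^ 4) (m.prod m) := by
    refine Integrable.of_bound (Measurable.aestronglyMeasurable ?_) (F₀ / s ^ 4) (ae_of_all _ fun q => ?_)
    · exact hFm.div ((((hrm.pow_const 2).add_const (s ^ 2)).sqrt).pow_const 4)
    · rw [Real.norm_eq_abs, abs_of_nonneg (div_nonneg (hF0 _ _) (by positivity))]
      gcongr
      · exact hFb _ _
      · exact Real.le_sqrt_of_sq_le (by nlinarith [sq_nonneg (r (pr q.1) (pr q.2))])
  rw [integral_integral hG]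
  refine (integral_mono hG ((integrable_const F₀).fun_add (integrable_finsetSum _ hkkm)) hpt).trans ?_
  rw [integral_add (integrable_const _) (integrable_finsetSum _ hkkm), integral_finsetSum _ hkkm,
    integral_const, smul_eq_mul]
  have hMM : (m.prod m).real Set.univ = M ^ 2 := by
    rw [← Set.univ_prod_univ, measureReal_prod_prod, pow_two]
  rw [hMM]
  have hl : 1 / 2 ≤ Real.log (1 / s) := by
    have : Real.log 2 ≤ Real.log (1 / s) :=
      Real.log_le_log two_pos (by rw [le_div_iff₀ hs]; linarith)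
    linarith [Real.log_two_gt_d9]
  have hsum : ∑ e ∈ S, ∫ q, kk e q ∂(m.prod m) ≤ S.card * (16 / c * B + 16 * T * F₀ * M ^ 2) := by
    refine (sum_le_sum (g := fun _ => 16 / c * B + 16 * T * F₀ * M ^ 2) fun e he => ?_).trans_eq
      (by rw [sum_const, nsmul_eq_mul])
    by_cases h : e ≤ ε₁
    · simp only [kk, h, if_true]
      rw [integral_const_mul]
      have hint : Integrable (fun q : Ω × Ω => k e q.1 q.2 * F q.1 q.2) (m.prod m) := by
        have := (hkkm e he).const_mul (c / 16)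
        refine this.congr (ae_of_all _ fun q => ?_)
        simp only [kk, h, if_true]; field_simp
      rw [integral_prod _ hint]
      exact (mul_le_mul_of_nonneg_left (hoff e (hS e he).1 h) (by positivity)).trans
        (le_add_of_nonneg_right (by positivity))
    · simp only [kk, h, if_false, integral_const, smul_eq_mul, hMM]
      nlinarith [show 0 ≤ 16 / c * B by positivity]
  nlinarith [mul_le_mul_of_nonneg_right hcard (show 0 ≤ 16 / c * B + 16 * T * F₀ * M ^ 2 by positivity),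
    mul_le_mul_of_nonneg_left hl (show 0 ≤ 2 * F₀ * M ^ 2 by positivity)]

end Geom

end Vale.Agent.P204.Est
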