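import Mathlib
import Vale.Agent.P204.Est.Growth

/-!
# P204: atoms and points with controlled growth

`μ` is a finite measure on atoms, each placed at a point `pt p`; `vol` is a finite measure on points.
-/

open MeasureTheory Filter Set Finset
open scoped Topology

namespace Vale.Agent.P204.Est

/-- The regularised distance. -/
noncomputable def regD (t s : ℝ) : ℝ := Real.sqrt (t ^ 2 + s ^ 2)

theorem regD_sq (t s : ℝ) : regD t s ^ 2 = t ^ 2 + s ^ 2 := Real.sq_sqrt (by positivity)

theorem le_regD_right (t : ℝ) {s : ℝ} : s ≤ regD t s :=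
  Real.le_sqrt_of_sq_le (le_add_of_nonneg_left (sq_nonneg t))

theorem le_regD_left {t s : ℝ} : t ≤ regD t s :=
  Real.le_sqrt_of_sq_le (le_add_of_nonneg_right (sq_nonneg s))

theorem regD_pos (t : ℝ) {s : ℝ} (hs : 0 < s) : 0 < regD t s := hs.trans_le (le_regD_right t)

theorem measurable_regD {α : Type*} [MeasurableSpace α] {f : α → ℝ} (hf : Measurable f) (s : ℝ) :
    Measurable fun a => regD (f a) s :=
  Real.continuous_sqrt.measurable.comp ((hf.pow_const 2).add_const (s ^ 2))

theorem inv_regD_le (t : ℝ) {s : ℝ} (hs : 0 < s) (j : ℕ) : 1 / regD t s ^ j ≤ 1 / s ^ j :=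
  one_div_le_one_div_of_le (pow_pos hs j) (pow_le_pow_left₀ hs.le (le_regD_right t) j)

/-- `s ↦ regD t s` tends to `t`. -/
theorem tendsto_regD {t : ℝ} (ht : 0 ≤ t) : Tendsto (regD t) (𝓝 0) (𝓝 t) := by
  have h : Continuous (regD t) :=
    Real.continuous_sqrt.comp (continuous_const.add (continuous_pow 2))
  have e : regD t 0 = t := by simp [regD, Real.sqrt_sq ht]
  simpa [e] using h.tendsto 0

section Generic

variable {α : Type*} [MeasurableSpace α] {μ : Measure α}

/-- A pointwise limit of nonnegative functions with bounded integrals is integrable. -/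
theorem integrable_of_bound_lim {f : ℕ → α → ℝ} {g : α → ℝ} (hf : ∀ n, Integrable (f n) μ)
    (h0 : ∀ n x, 0 ≤ f n x) (hlim : ∀ᵐ x ∂μ, Tendsto (fun n => f n x) atTop (𝓝 (g x))) {C : ℝ}
    (hC : ∀ n, ∫ x, f n x ∂μ ≤ C) : Integrable g μ := by
  refine ⟨aestronglyMeasurable_of_tendsto_ae atTop (fun n => (hf n).aestronglyMeasurable) hlim, ?_⟩
  have hn : ∀ n, ∫⁻ x, ENNReal.ofReal (f n x) ∂μ ≤ ENNReal.ofReal C := fun n => by
    rw [← ofReal_integral_eq_lintegral_ofReal (hf n) (ae_of_all _ (h0 n))]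
    exact ENNReal.ofReal_le_ofReal (hC n)
  have hae : ∀ᵐ x ∂μ, ‖g x‖ₑ = liminf (fun n => ENNReal.ofReal (f n x)) atTop := hlim.mono fun x hx => by
    have h := (ENNReal.continuous_ofReal.tendsto (g x)).comp hx
    simp only [Function.comp_def] at h
    rw [h.liminf_eq]
    exact Real.enorm_eq_ofReal (ge_of_tendsto hx (Eventually.of_forall fun n => h0 n x))
  rw [HasFiniteIntegral, lintegral_congr_ae hae]
  exact ((lintegral_liminf_le' fun n => (hf n).aemeasurable.ennreal_ofReal).trans
    (liminf_le_of_le (h := fun b hb => by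
      obtain ⟨n, hn'⟩ := hb.exists
      exact hn'.trans (hn n)))).trans_lt ENNReal.ofReal_lt_top

/-- The critical potential is logarithmic. -/
theorem log_bound [IsFiniteMeasure μ] {r : α → ℝ} (hr : Measurable r) (r0 : ∀ p, 0 ≤ r p) {A : ℝ}
    (k : ℕ) (hA : ∀ t, 0 < t → μ.real {q | r q ≤ t} ≤ A * t ^ k) {s : ℝ} (hs : 0 < s)
    (hs2 : s ≤ 1 / 2) :
    ∫ p, 1 / regD (r p) s ^ k ∂μ ≤ μ.real Set.univ + 5 * 2 ^ k * A * Real.log (1 / s) := by
  obtain ⟨S, hS, hcard, hmem⟩ := log_scales hs hs2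
  have hA0 : 0 ≤ A := by simpa using measureReal_nonneg.trans (hA 1 one_pos)
  have hm : ∀ e, MeasurableSet {q | r q ≤ e} := fun e => measurableSet_le hr measurable_const
  have hi : ∀ e, Integrable
      (fun p => 2 ^ k / e ^ k * ({q | r q ≤ e} : Set α).indicator (fun _ => (1 : ℝ)) p) μ :=
    fun e => ((integrable_const (1 : ℝ)).indicator (hm e)).const_mul _
  have hpt : ∀ p, 1 / regD (r p) s ^ k
      ≤ 1 + ∑ e ∈ S, 2 ^ k / e ^ k * ({q | r q ≤ e} : Set α).indicator (fun _ => (1 : ℝ)) p := fun p => by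
    have hnn : ∀ e ∈ S,
        0 ≤ 2 ^ k / e ^ k * ({q | r q ≤ e} : Set α).indicator (fun _ => (1 : ℝ)) p := fun e he => by
      have := (hS e he).1
      exact mul_nonneg (by positivity) (Set.indicator_nonneg (fun _ _ => zero_le_one) _)
    rcases le_or_gt (r p) 1 with h1 | h1
    · obtain ⟨e, he, hre, heR⟩ := hmem (r p) (r0 p) h1
      refine le_trans ?_ (le_add_of_nonneg_left zero_le_one)
      refine le_trans ?_ (single_le_sum hnn he)
      simp only [Set.mem_ofPred_eq, hre, Set.indicator_of_mem, mul_one]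
      rw [div_le_div_iff₀ (pow_pos (regD_pos _ hs) k) (pow_pos (hS e he).1 k), one_mul, ← mul_pow]
      exact pow_le_pow_left₀ (hS e he).1.le heR k
    · refine le_trans ?_ (le_add_of_nonneg_right (sum_nonneg hnn))
      rw [div_le_one (pow_pos (regD_pos _ hs) k)]
      exact one_le_pow₀ (h1.le.trans le_regD_left)
  refine (integral_mono_of_nonneg
    (ae_of_all _ fun p => one_div_nonneg.2 (pow_nonneg (regD_pos _ hs).le k))
    ((integrable_const (1 : ℝ)).add (integrable_finsetSum _ fun e _ => hi e)) (ae_of_all _ hpt)).trans ?_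
  simp only [Pi.add_apply]
  rw [integral_add (integrable_const (1 : ℝ)) (integrable_finsetSum _ fun e _ => hi e),
    integral_finsetSum _ fun e _ => hi e, integral_const, smul_eq_mul, mul_one]
  refine add_le_add le_rfl ?_
  have hterm : ∀ e ∈ S,
      ∫ p, 2 ^ k / e ^ k * ({q | r q ≤ e} : Set α).indicator (fun _ => (1 : ℝ)) p ∂μ ≤ 2 ^ k * A := fun e he => by
    have he0 := (hS e he).1
    rw [integral_const_mul, integral_indicator_const (1 : ℝ) (hm e), smul_eq_mul, mul_one]
    refine (mul_le_mul_of_nonneg_left (hA e he0) (by positivity)).trans_eq ?_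
    field_simp
  refine (sum_le_sum hterm).trans ?_
  rw [sum_const, nsmul_eq_mul]
  refine (mul_le_mul_of_nonneg_right hcard (by positivity)).trans_eq ?_
  ring

/-- The logarithm of the inverse scale. -/
theorem tendsto_log_inv : Tendsto (fun s : ℝ => Real.log (1 / s)) (𝓝[>] 0) atTop := by
  refine (tendsto_neg_atBot_atTop.comp Real.tendsto_log_nhdsGT_zero).congr fun s => ?_
  simp [Function.comp, Real.log_inv]

/-- At scales below one half the logarithm is at least one half. -/
theorem half_le_log_inv {s : ℝ} (hs : 0 < s) (hs2 : s ≤ 1 / 2) : 1 / 2 ≤ Real.log (1 / s) := by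
  have h : Real.log 2 ≤ Real.log (1 / s) :=
    Real.log_le_log two_pos (by rw [le_div_iff₀ hs]; linarith)
  linarith [Real.log_two_gt_d9]

/-- Scales tending to zero. -/
noncomputable def scale (n : ℕ) : ℝ := 1 / ((n : ℝ) + 2)

theorem scale_mem (n : ℕ) : 0 < scale n ∧ scale n ≤ 1 / 2 :=
  ⟨by unfold scale; positivity, by unfold scale; gcongr; simp⟩

theorem tendsto_scale : Tendsto scale atTop (𝓝[>] 0) := by
  refine tendsto_nhdsWithin_iff.2 ⟨?_, Eventually.of_forall fun n => (scale_mem n).1⟩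
  refine (tendsto_const_nhds.div_atTop (tendsto_atTop_add_const_right _ 2 tendsto_natCast_atTop_atTop))

/-- Small positive scales, eventually. -/
theorem eventually_small {a : ℝ} (ha : 0 < a) : ∀ᶠ s : ℝ in 𝓝[>] 0, 0 < s ∧ s ≤ a :=
  Filter.mem_of_superset (Ioo_mem_nhdsGT ha) fun _ hs => ⟨hs.1, hs.2.le⟩

end Generic

/-- Atoms and points with quadratic, respectively quartic, growth. -/
structure Space {Ω X : Type*} [MeasurableSpace Ω] [MeasurableSpace X] (μ : Measure Ω)
    (vol : Measure X) (pt : Ω → X) (r : X → X → ℝ) (A : ℝ) : Prop where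
  finAtoms : IsFiniteMeasure μ
  finVol : IsFiniteMeasure vol
  ptMeas : Measurable pt
  rMeas : Measurable (Function.uncurry r)
  rnn : ∀ x y, 0 ≤ r x y
  rle : ∀ x y, r x y ≤ A
  symm : ∀ x y, r x y = r y x
  Ann : 0 ≤ A
  atoms : ∀ x t, 0 < t → μ.real {p | r x (pt p) ≤ t} ≤ A * t ^ 2
  cells : ∀ x t, 0 < t → vol.real {y | r x y ≤ t} ≤ A * t ^ 4

namespace Space

variable {Ω X : Type*} [MeasurableSpace Ω] [MeasurableSpace X] {μ : Measure Ω} {vol : Measure X}
  {pt : Ω → X} {r : X → X → ℝ} {A : ℝ}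

theorem meas_atom (S : Space μ vol pt r A) (x : X) : Measurable fun p => r x (pt p) :=
  S.rMeas.comp (measurable_const.prodMk S.ptMeas)

theorem meas_cell (S : Space μ vol pt r A) (x : X) : Measurable fun y => r x y :=
  S.rMeas.comp (measurable_const.prodMk measurable_id)

theorem atoms_inv (S : Space μ vol pt r A) (x : X) {s : ℝ} (hs : 0 < s) :
    ∫ p, 1 / regD (r x (pt p)) s ∂μ ≤ μ.real Set.univ + 8 * A := by
  have := S.finAtoms
  have h := potential_bound (μ := μ) (S.meas_atom x) (fun p => S.rnn x _) 1 hs one_pos S.Ann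
    fun t ht _ => S.atoms x t (hs.trans_le ht)
  simp only [pow_one] at h
  refine h.trans_eq ?_
  ring

theorem atoms_inv_sq (S : Space μ vol pt r A) (x : X) {s : ℝ} (hs : 0 < s) (hs2 : s ≤ 1 / 2) :
    ∫ p, 1 / regD (r x (pt p)) s ^ 2 ∂μ ≤ μ.real Set.univ + 20 * A * Real.log (1 / s) := by
  have := S.finAtoms
  refine (log_bound (S.meas_atom x) (fun p => S.rnn x _) 2 (S.atoms x) hs hs2).trans_eq ?_
  norm_num

theorem cells_inv_cube (S : Space μ vol pt r A) (x : X) {s : ℝ} (hs : 0 < s) :
    ∫ y, 1 / regD (r x y) s ^ 3 ∂vol ≤ vol.real Set.univ + 32 * A := by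
  have := S.finVol
  have h := potential_bound (μ := vol) (S.meas_cell x) (fun p => S.rnn x _) 3 hs one_pos S.Ann
    fun t ht _ => S.cells x t (hs.trans_le ht)
  refine h.trans_eq ?_
  ring

theorem cells_inv_four (S : Space μ vol pt r A) (x : X) {s : ℝ} (hs : 0 < s) (hs2 : s ≤ 1 / 2) :
    ∫ y, 1 / regD (r x y) s ^ 4 ∂vol ≤ vol.real Set.univ + 80 * A * Real.log (1 / s) := by
  have := S.finVol
  refine (log_bound (S.meas_cell x) (fun p => S.rnn x _) 4 (S.cells x) hs hs2).trans_eq ?_
  norm_num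

theorem atoms_int (S : Space μ vol pt r A) (x : X) {s : ℝ} (hs : 0 < s) (j : ℕ) :
    Integrable (fun p => 1 / regD (r x (pt p)) s ^ j) μ := by
  have := S.finAtoms
  refine Integrable.mono' (integrable_const (1 / s ^ j))
    (measurable_const.div ((measurable_regD (S.meas_atom x) s).pow_const j)).aestronglyMeasurable
    (ae_of_all _ fun p => ?_)
  rw [Real.norm_of_nonneg (one_div_nonneg.2 (pow_nonneg (regD_pos _ hs).le j))]
  exact inv_regD_le _ hs j

theorem cells_int (S : Space μ vol pt r A) (x : X) {s : ℝ} (hs : 0 < s) (j : ℕ) :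
    Integrable (fun y => 1 / regD (r x y) s ^ j) vol := by
  have := S.finVol
  refine Integrable.mono' (integrable_const (1 / s ^ j))
    (measurable_const.div ((measurable_regD (S.meas_cell x) s).pow_const j)).aestronglyMeasurable
    (ae_of_all _ fun p => ?_)
  rw [Real.norm_of_nonneg (one_div_nonneg.2 (pow_nonneg (regD_pos _ hs).le j))]
  exact inv_regD_le _ hs j

/-- The diagonal carries no atom. -/
theorem atoms_off (S : Space μ vol pt r A) (x : X) : ∀ᵐ p ∂μ, 0 < r x (pt p) := by
  have := S.finAtoms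
  refine ae_iff.2 (measureReal_eq_zero_iff (measure_ne_top _ _) |>.1 (le_antisymm ?_ measureReal_nonneg))
  refine le_of_forall_gt_imp_ge_of_dense fun e he => ?_
  obtain ⟨t, ht, hte⟩ : ∃ t, 0 < t ∧ A * t ^ 2 ≤ e := by
    have := S.Ann
    exact ⟨Real.sqrt (e / (A + 1)), by positivity, by
      rw [Real.sq_sqrt (by positivity), ← mul_div_assoc, div_le_iff₀ (by positivity)]
      nlinarith⟩
  refine le_trans ?_ ((S.atoms x t ht).trans hte)
  exact measureReal_mono fun p hp => (not_lt.1 hp).trans ht.le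

/-- The diagonal has no volume. -/
theorem cells_off (S : Space μ vol pt r A) (x : X) : ∀ᵐ y ∂vol, 0 < r x y := by
  have := S.finVol
  refine ae_iff.2 (measureReal_eq_zero_iff (measure_ne_top _ _) |>.1 (le_antisymm ?_ measureReal_nonneg))
  refine le_of_forall_gt_imp_ge_of_dense fun e he => ?_
  obtain ⟨t, ht, hte⟩ : ∃ t, 0 < t ∧ A * t ^ 4 ≤ e := by
    have := S.Ann
    refine ⟨min 1 (e / (A + 1)), lt_min one_pos (by positivity), ?_⟩
    have h1 : (min 1 (e / (A + 1))) ^ 4 ≤ e / (A + 1) :=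
      (pow_le_of_le_one (le_min zero_le_one (by positivity)) (min_le_left _ _) four_ne_zero).trans
        (min_le_right _ _)
    refine (mul_le_mul_of_nonneg_left h1 this).trans ?_
    rw [← mul_div_assoc, div_le_iff₀ (by positivity)]
    nlinarith
  refine le_trans ?_ ((S.cells x t ht).trans hte)
  exact measureReal_mono fun p hp => (not_lt.1 hp).trans ht.le

end Space

end Vale.Agent.P204.Est
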