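import Mathlib
import Vale.Agent.P204.Est.Space

/-!
# P204: the density of the atoms and the logarithmic averages of the test potential

The test data are a squared distance `q`, a positive weight `gl` of the atoms, the pairing `D`
of the test form with an atom, and its pairing `E` with the regular part, of size `rho`.
-/

open MeasureTheory Filter Set
open scoped Topology

namespace Vale.Agent.P204.Est

/-- The functions entering the monotonicity identity. -/
structure TestData (Ω X : Type*) where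
  q : X → X → ℝ
  gl : Ω → ℝ
  rt : X → Ω → ℝ
  D : ℝ → X → Ω → ℝ
  E : ℝ → X → X → ℝ
  rho : X → ℝ

section

variable {Ω X : Type*}

/-- The concentrated part of the pairing. -/
noncomputable def TestData.lead (T : TestData Ω X) (pt : Ω → X) (s : ℝ) (x : X) (p : Ω) : ℝ :=
  2 * s ^ 2 * T.gl p / (T.q x (pt p) + s ^ 2) ^ 2

/-- The potential. -/
noncomputable def TestData.pot (T : TestData Ω X) (s : ℝ) (x y : X) : ℝ :=
  Real.log (T.q x y + s ^ 2) / 2

/-- The potential times the test form, paired with the atoms and the regular part. -/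
noncomputable def TestData.pair [MeasurableSpace Ω] [MeasurableSpace X] (T : TestData Ω X)
    (μ : Measure Ω) (vol : Measure X) (pt : Ω → X) (s : ℝ) (x : X) : ℝ :=
  (∫ p, T.pot s x (pt p) * T.D s x p ∂μ) + ∫ y, T.pot s x y * T.E s x y ∂vol

/-- The properties of the test data. -/
structure TestData.Valid [MeasurableSpace Ω] [MeasurableSpace X] (T : TestData Ω X) (μ : Measure Ω)
    (vol : Measure X) (pt : Ω → X) (r : X → X → ℝ) (c C : ℝ) : Prop where
  cpos : 0 < c
  cle : c ≤ 1
  Cnn : 0 ≤ C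
  qMeas : Measurable (Function.uncurry T.q)
  glMeas : Measurable T.gl
  rtMeas : ∀ x, Measurable (T.rt x)
  DMeas : ∀ s x, Measurable (T.D s x)
  EMeas : ∀ s x, Measurable (T.E s x)
  rhoMem : MemLp T.rho 2 vol
  rhonn : ∀ x, 0 ≤ T.rho x
  qlow : ∀ x y, c * r x y ^ 2 ≤ T.q x y
  qhigh : ∀ x y, T.q x y ≤ C * r x y ^ 2
  glow : ∀ p, c ≤ T.gl p
  ghigh : ∀ p, T.gl p ≤ C
  rtle : ∀ x p, |T.rt x p| ≤ C * r x (pt p)
  rtInt : ∀ x s, 0 < s → s ≤ 1 → ∫ p, T.rt x p ^ 2 / regD (r x (pt p)) s ^ 4 ∂μ ≤ C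
  Dform : ∀ s x p, 0 < s → s ≤ 1 →
    |T.D s x p - 2 * (T.rt x p ^ 2 + s ^ 2 * T.gl p) / (T.q x (pt p) + s ^ 2) ^ 2|
      ≤ C / regD (r x (pt p)) s
  Ebound : ∀ s x y, 0 < s → s ≤ 1 → |T.E s x y| ≤ C * T.rho y / regD (r x y) s
  Dlim : ∀ x p, 0 < r x (pt p) → Tendsto (fun s => T.D s x p) (𝓝[>] 0) (𝓝 (T.D 0 x p))
  Elim : ∀ x y, 0 < r x y → Tendsto (fun s => T.E s x y) (𝓝[>] 0) (𝓝 (T.E 0 x y))
  ident : ∀ s x, 0 < s → s ≤ 1 → (∫ p, T.D s x p ∂μ) + ∫ y, T.E s x y ∂vol = 0

end

namespace TestData.Valid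

variable {Ω X : Type*} [MeasurableSpace Ω] [MeasurableSpace X] {μ : Measure Ω} {vol : Measure X}
  {pt : Ω → X} {r : X → X → ℝ} {A c C : ℝ} {T : TestData Ω X}

theorem den (V : T.Valid μ vol pt r c C) (s : ℝ) (x y : X) :
    c * regD (r x y) s ^ 2 ≤ T.q x y + s ^ 2 := by
  rw [regD_sq]
  nlinarith [V.qlow x y, mul_le_of_le_one_left (sq_nonneg s) V.cle]

theorem den_pos (V : T.Valid μ vol pt r c C) {s : ℝ} (hs : 0 < s) (x y : X) :
    0 < T.q x y + s ^ 2 :=
  (mul_pos V.cpos (pow_pos (regD_pos _ hs) 2)).trans_le (V.den s x y)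

theorem lead_nonneg (V : T.Valid μ vol pt r c C) (s : ℝ) (x : X) (p : Ω) : 0 ≤ T.lead pt s x p := by
  have := V.cpos.le.trans (V.glow p)
  unfold TestData.lead
  positivity

theorem lead_le (V : T.Valid μ vol pt r c C) {s : ℝ} (hs : 0 < s) (x : X) (p : Ω) :
    T.lead pt s x p ≤ 2 * C / c ^ 2 * (s ^ 2 / regD (r x (pt p)) s ^ 4) := by
  have hR := regD_pos (r x (pt p)) hs
  have hd : c ^ 2 * regD (r x (pt p)) s ^ 4 ≤ (T.q x (pt p) + s ^ 2) ^ 2 := by
    refine le_trans (le_of_eq (by ring)) (pow_le_pow_left₀ (mul_nonneg V.cpos.le (sq_nonneg _)) (V.den s x (pt p)) 2)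
  have := V.cpos
  have := V.Cnn
  rw [TestData.lead, div_mul_div_comm]
  refine div_le_div₀ (by positivity) ?_ (by positivity) hd
  nlinarith [mul_le_mul_of_nonneg_left (V.ghigh p) (sq_nonneg s)]

theorem lead_le_one (V : T.Valid μ vol pt r c C) {s : ℝ} (hs : 0 < s) (x : X) (p : Ω) :
    T.lead pt s x p ≤ 2 * C / c ^ 2 / s ^ 2 := by
  have := V.cpos
  have := V.Cnn
  refine (V.lead_le hs x p).trans ?_
  rw [div_eq_mul_one_div (2 * C / c ^ 2) (s ^ 2)]
  refine mul_le_mul_of_nonneg_left ?_ (by positivity)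
  rw [div_le_div_iff₀ (pow_pos (regD_pos _ hs) 4) (by positivity), one_mul, ← pow_add]
  exact pow_le_pow_left₀ hs.le (le_regD_right _) 4

/-- The pairing without its concentrated part. -/
theorem rest_le (V : T.Valid μ vol pt r c C) {s : ℝ} (hs : 0 < s) (hs1 : s ≤ 1) (x : X) (p : Ω) :
    |T.D s x p - T.lead pt s x p| ≤
      (2 / c ^ 2 + C) * (T.rt x p ^ 2 / regD (r x (pt p)) s ^ 4 + 1 / regD (r x (pt p)) s) := by
  have hR := regD_pos (r x (pt p)) hs
  have hq := V.den_pos hs x (pt p)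
  have := V.cpos
  have := V.Cnn
  have h1 : |2 * T.rt x p ^ 2 / (T.q x (pt p) + s ^ 2) ^ 2|
      ≤ 2 / c ^ 2 * (T.rt x p ^ 2 / regD (r x (pt p)) s ^ 4) := by
    rw [abs_of_nonneg (by positivity), div_mul_div_comm]
    exact div_le_div₀ (by positivity) le_rfl (by positivity) (le_trans (le_of_eq (by ring))
      (pow_le_pow_left₀ (mul_nonneg V.cpos.le (sq_nonneg _)) (V.den s x (pt p)) 2))
  have e : T.D s x p - T.lead pt s x p
      = (T.D s x p - 2 * (T.rt x p ^ 2 + s ^ 2 * T.gl p) / (T.q x (pt p) + s ^ 2) ^ 2)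
        + 2 * T.rt x p ^ 2 / (T.q x (pt p) + s ^ 2) ^ 2 := by
    rw [TestData.lead]; ring
  rw [e]
  refine (abs_add_le _ _).trans ?_
  have h2 : |T.D s x p - 2 * (T.rt x p ^ 2 + s ^ 2 * T.gl p) / (T.q x (pt p) + s ^ 2) ^ 2|
      ≤ C * (1 / regD (r x (pt p)) s) := (V.Dform s x p hs hs1).trans_eq (by ring)
  have h3 : 0 ≤ C * (T.rt x p ^ 2 / regD (r x (pt p)) s ^ 4) := by positivity
  have h4 : 0 ≤ 2 / c ^ 2 * (1 / regD (r x (pt p)) s) := by positivity
  linarith

theorem rt_sq_le (V : T.Valid μ vol pt r c C) (S : Space μ vol pt r A) {s : ℝ} (hs : 0 < s) (x : X)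
    (p : Ω) : T.rt x p ^ 2 / regD (r x (pt p)) s ^ 4 ≤ C ^ 2 / s ^ 2 := by
  have hR := regD_pos (r x (pt p)) hs
  rw [div_le_div_iff₀ (pow_pos hR 4) (by positivity)]
  have h1 : T.rt x p ^ 2 ≤ (C * r x (pt p)) ^ 2 := sq_le_sq' (by
    have := abs_le.1 (V.rtle x p); linarith) (abs_le.1 (V.rtle x p)).2
  calc T.rt x p ^ 2 * s ^ 2 ≤ (C * r x (pt p)) ^ 2 * regD (r x (pt p)) s ^ 2 :=
        mul_le_mul h1 (pow_le_pow_left₀ hs.le (le_regD_right _) 2) (sq_nonneg _) (sq_nonneg _)
    _ ≤ (C * regD (r x (pt p)) s) ^ 2 * regD (r x (pt p)) s ^ 2 := by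
        refine mul_le_mul_of_nonneg_right (pow_le_pow_left₀ (mul_nonneg V.Cnn (S.rnn _ _)) ?_ 2) (sq_nonneg _)
        exact mul_le_mul_of_nonneg_left le_regD_left V.Cnn
    _ = C ^ 2 * regD (r x (pt p)) s ^ 4 := by ring

theorem meas_q (V : T.Valid μ vol pt r c C) (S : Space μ vol pt r A) (x : X) :
    Measurable fun p => T.q x (pt p) :=
  V.qMeas.comp (measurable_const.prodMk S.ptMeas)

theorem meas_lead (V : T.Valid μ vol pt r c C) (S : Space μ vol pt r A) (s : ℝ) :
    Measurable fun z : X × Ω => T.lead pt s z.1 z.2 :=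
  ((V.glMeas.comp measurable_snd).const_mul _).div
    (((V.qMeas.comp (measurable_fst.prodMk (S.ptMeas.comp measurable_snd))).add_const _).pow_const 2)

theorem meas_lead_at (V : T.Valid μ vol pt r c C) (S : Space μ vol pt r A) (s : ℝ) (x : X) :
    Measurable (T.lead pt s x) :=
  (V.glMeas.const_mul _).div (((V.meas_q S x).add_const _).pow_const 2)

theorem int_lead (V : T.Valid μ vol pt r c C) (S : Space μ vol pt r A) {s : ℝ} (hs : 0 < s) (x : X) :
    Integrable (T.lead pt s x) μ := by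
  have := S.finAtoms
  exact Integrable.mono' (integrable_const _) (V.meas_lead_at S s x).aestronglyMeasurable
    (ae_of_all _ fun p => by
      rw [Real.norm_of_nonneg (V.lead_nonneg s x p)]; exact V.lead_le_one hs x p)

theorem int_rest_bound (V : T.Valid μ vol pt r c C) (S : Space μ vol pt r A) {s : ℝ} (hs : 0 < s)
    (x : X) : Integrable
      (fun p => T.rt x p ^ 2 / regD (r x (pt p)) s ^ 4 + 1 / regD (r x (pt p)) s) μ := by
  have := S.finAtoms
  have h := S.atoms_int x hs 1
  simp only [pow_one] at h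
  refine Integrable.add ?_ h
  exact Integrable.mono' (integrable_const _) (((V.rtMeas x).pow_const 2).div
    ((measurable_regD (S.meas_atom x) s).pow_const 4)).aestronglyMeasurable (ae_of_all _ fun p => by
      rw [Real.norm_of_nonneg (div_nonneg (sq_nonneg _) (pow_nonneg (regD_pos _ hs).le 4))]
      exact V.rt_sq_le S hs x p)

theorem int_D (V : T.Valid μ vol pt r c C) (S : Space μ vol pt r A) {s : ℝ} (hs : 0 < s)
    (hs1 : s ≤ 1) (x : X) : Integrable (T.D s x) μ := by
  refine Integrable.mono' (((V.int_rest_bound S hs x).const_mul (2 / c ^ 2 + C)).add (V.int_lead S hs x))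
    (V.DMeas s x).aestronglyMeasurable (ae_of_all _ fun p => ?_)
  have := V.rest_le hs hs1 x p
  have h0 := V.lead_nonneg s x p
  rw [Real.norm_eq_abs]
  have h : |T.D s x p| ≤ |T.D s x p - T.lead pt s x p| + |T.lead pt s x p| := by
    simpa using abs_add_le (T.D s x p - T.lead pt s x p) (T.lead pt s x p)
  rw [abs_of_nonneg h0] at h
  simp only [Pi.add_apply]
  linarith

theorem int_rho_sq (V : T.Valid μ vol pt r c C) : Integrable (fun y => T.rho y ^ 2) vol :=
  V.rhoMem.integrable_sq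

theorem rho_inv_le (V : T.Valid μ vol pt r c C) {s : ℝ} (hs : 0 < s) (x y : X) :
    T.rho y / regD (r x y) s ≤ T.rho y ^ 2 + (1 + 1 / regD (r x y) s ^ 3) := by
  have hR := regD_pos (r x y) hs
  have h1 : T.rho y / regD (r x y) s ≤ T.rho y ^ 2 + 1 / regD (r x y) s ^ 2 := by
    have h := sq_nonneg (T.rho y - 1 / regD (r x y) s)
    have e : (T.rho y - 1 / regD (r x y) s) ^ 2
        = T.rho y ^ 2 + 1 / regD (r x y) s ^ 2 - 2 * (T.rho y / regD (r x y) s) := by
      field_simp; ring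
    have : 0 ≤ T.rho y / regD (r x y) s := div_nonneg (V.rhonn y) hR.le
    linarith
  refine h1.trans (add_le_add le_rfl ?_)
  rcases le_or_gt (regD (r x y) s) 1 with h | h
  · refine le_add_of_nonneg_of_le zero_le_one ?_
    exact one_div_le_one_div_of_le (pow_pos hR 3) (pow_le_pow_of_le_one hR.le h (by norm_num))
  · refine le_add_of_le_of_nonneg ?_ (by positivity)
    rw [div_le_one (by positivity)]; exact one_le_pow₀ h.le

theorem int_E (V : T.Valid μ vol pt r c C) (S : Space μ vol pt r A) {s : ℝ} (hs : 0 < s)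
    (hs1 : s ≤ 1) (x : X) : Integrable (T.E s x) vol := by
  have := S.finVol
  refine Integrable.mono' ((V.int_rho_sq.add ((integrable_const 1).add (S.cells_int x hs 3))).const_mul C)
    (V.EMeas s x).aestronglyMeasurable (ae_of_all _ fun y => ?_)
  rw [Real.norm_eq_abs]
  refine (V.Ebound s x y hs hs1).trans ?_
  simp only [Pi.add_apply]
  rw [mul_div_assoc]
  exact mul_le_mul_of_nonneg_left (V.rho_inv_le hs x y) V.Cnn

theorem dom_atoms (V : T.Valid μ vol pt r c C) (S : Space μ vol pt r A) (x : X) :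
    Integrable (fun p => T.rt x p ^ 2 / r x (pt p) ^ 4 + 1 / r x (pt p)) μ := by
  refine integrable_of_bound_lim (f := fun n p => T.rt x p ^ 2 / regD (r x (pt p)) (scale n) ^ 4
    + 1 / regD (r x (pt p)) (scale n)) (fun n => V.int_rest_bound S (scale_mem n).1 x)
    (fun n p => by have := regD_pos (r x (pt p)) (scale_mem n).1; positivity) ?_
    (C := C + (μ.real Set.univ + 8 * A)) fun n => ?_
  · filter_upwards [S.atoms_off x] with p hp
    have h := (tendsto_regD hp.le).comp (tendsto_nhdsWithin_iff.1 tendsto_scale).1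
    exact (tendsto_const_nhds.div (h.pow 4) (pow_ne_zero 4 hp.ne')).add
      (tendsto_const_nhds.div h hp.ne')
  · obtain ⟨h1, h2⟩ := scale_mem n
    have hi := S.atoms_int x h1 1
    simp only [pow_one] at hi
    have hrt : Integrable (fun p => T.rt x p ^ 2 / regD (r x (pt p)) (scale n) ^ 4) μ := by
      refine ((V.int_rest_bound S h1 x).sub hi).congr (ae_of_all _ fun p => ?_)
      simp [Pi.sub_apply]
    rw [integral_add hrt hi]
    exact add_le_add (V.rtInt x _ h1 (h2.trans (by norm_num))) (S.atoms_inv x h1)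

theorem dom_cells (V : T.Valid μ vol pt r c C) (S : Space μ vol pt r A) (x : X) :
    Integrable (fun y => T.rho y ^ 2 + (1 + 1 / r x y ^ 3)) vol := by
  have := S.finVol
  refine V.int_rho_sq.add ((integrable_const 1).add ?_)
  refine integrable_of_bound_lim (f := fun n y => 1 / regD (r x y) (scale n) ^ 3)
    (fun n => S.cells_int x (scale_mem n).1 3)
    (fun n y => by have := regD_pos (r x y) (scale_mem n).1; positivity) ?_
    fun n => S.cells_inv_cube x (scale_mem n).1
  filter_upwards [S.cells_off x] with y hy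
  exact tendsto_const_nhds.div (((tendsto_regD hy.le).comp (tendsto_nhdsWithin_iff.1 tendsto_scale).1).pow 3)
    (pow_ne_zero 3 hy.ne')

theorem rest_dom (V : T.Valid μ vol pt r c C) {s : ℝ} (hs : 0 < s) (hs1 : s ≤ 1) {x : X} {p : Ω}
    (hp : 0 < r x (pt p)) : |T.D s x p - T.lead pt s x p| ≤
      (2 / c ^ 2 + C) * (T.rt x p ^ 2 / r x (pt p) ^ 4 + 1 / r x (pt p)) := by
  refine (V.rest_le hs hs1 x p).trans (mul_le_mul_of_nonneg_left ?_ ?_)
  · exact add_le_add (div_le_div_of_nonneg_left (sq_nonneg _) (pow_pos hp 4)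
      (pow_le_pow_left₀ hp.le le_regD_left 4)) (one_div_le_one_div_of_le hp le_regD_left)
  · have := V.Cnn
    positivity

theorem E_dom (V : T.Valid μ vol pt r c C) {s : ℝ} (hs : 0 < s) (hs1 : s ≤ 1) {x y : X}
    (hy : 0 < r x y) : |T.E s x y| ≤ C * (T.rho y ^ 2 + (1 + 1 / r x y ^ 3)) := by
  refine (V.Ebound s x y hs hs1).trans ?_
  rw [mul_div_assoc]
  refine mul_le_mul_of_nonneg_left ((V.rho_inv_le hs x y).trans ?_) V.Cnn
  gcongr
  exact le_regD_left

theorem lead_tendsto (V : T.Valid μ vol pt r c C) {x : X} {p : Ω} (hp : 0 < r x (pt p)) :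
    Tendsto (fun s => T.lead pt s x p) (𝓝[>] 0) (𝓝 0) := by
  have hq : 0 < T.q x (pt p) := (mul_pos V.cpos (pow_pos hp 2)).trans_le (V.qlow x (pt p))
  have h : ContinuousAt (fun s : ℝ => T.lead pt s x p) 0 := by
    unfold TestData.lead
    fun_prop (disch := positivity)
  have e : T.lead pt 0 x p = 0 := by simp [TestData.lead]
  simpa [e] using h.tendsto.mono_left nhdsWithin_le_nhds

theorem pot_abs (V : T.Valid μ vol pt r c C) (S : Space μ vol pt r A) {s : ℝ} (hs : 0 < s)
    (hs1 : s ≤ 1 / 2) (x y : X) :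
    |T.pot s x y| ≤ |Real.log c| + (C * A ^ 2 + 1) + Real.log (1 / s) := by
  have hq := V.den_pos hs x y
  have hup : T.q x y + s ^ 2 ≤ C * A ^ 2 + 1 := by
    refine add_le_add ((V.qhigh x y).trans ?_) (by nlinarith)
    exact mul_le_mul_of_nonneg_left (pow_le_pow_left₀ (S.rnn x y) (S.rle x y) 2) V.Cnn
  have h1 : Real.log (T.q x y + s ^ 2) ≤ C * A ^ 2 + 1 :=
    (Real.log_le_sub_one_of_pos hq).trans (by linarith)
  have hlow : c * s ^ 2 ≤ T.q x y + s ^ 2 :=
    (mul_le_mul_of_nonneg_left (pow_le_pow_left₀ hs.le (le_regD_right _) 2) V.cpos.le).trans (V.den s x y)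
  have h2 : Real.log c - 2 * Real.log (1 / s) ≤ Real.log (T.q x y + s ^ 2) := by
    refine le_trans (le_of_eq ?_) (Real.log_le_log (mul_pos V.cpos (pow_pos hs 2)) hlow)
    rw [Real.log_mul V.cpos.ne' (by positivity), Real.log_pow, one_div, Real.log_inv]
    push_cast
    ring
  have h3 := half_le_log_inv hs hs1
  have h4 := neg_abs_le (Real.log c)
  have h5 : 0 ≤ C * A ^ 2 + 1 := hq.le.trans hup
  rw [TestData.pot, abs_le]
  constructor <;> linarith [abs_nonneg (Real.log c)]

theorem pot_shift (V : T.Valid μ vol pt r c C) {s : ℝ} (hs : 0 < s)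
    {ε : ℝ} (hε : 0 < ε) (x y : X) :
    |T.pot s x y + Real.log (1 / s)| ≤
      |Real.log c| + (C + 1) + 1 / (4 * ε) + ε * (regD (r x y) s ^ 2 / s ^ 2) := by
  set R := regD (r x y) s with hR'
  have hR : 0 < R := regD_pos _ hs
  have hq := V.den_pos hs x y
  have e : T.pot s x y + Real.log (1 / s) = Real.log ((T.q x y + s ^ 2) / s ^ 2) / 2 := by
    rw [TestData.pot, Real.log_div hq.ne' (by positivity), Real.log_pow, one_div, Real.log_inv]
    push_cast
    ring
  have hlow : c ≤ (T.q x y + s ^ 2) / s ^ 2 := by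
    rw [le_div_iff₀ (by positivity)]
    exact (mul_le_mul_of_nonneg_left (pow_le_pow_left₀ hs.le (le_regD_right _) 2) V.cpos.le).trans (V.den s x y)
  have hup : (T.q x y + s ^ 2) / s ^ 2 ≤ (C + 1) * (R / s) ^ 2 := by
    rw [div_pow, ← mul_div_assoc]
    refine div_le_div_of_nonneg_right ?_ (sq_nonneg _)
    rw [hR', regD_sq]
    nlinarith [V.qhigh x y, mul_nonneg V.Cnn (sq_nonneg s), sq_nonneg (r x y)]
  have hC : 0 < C + 1 := by linarith [V.Cnn]
  have hRs : 0 < R / s := div_pos hR hs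
  have h1 : Real.log ((T.q x y + s ^ 2) / s ^ 2) ≤ (C + 1) + 2 * (R / s) := by
    refine (Real.log_le_log (div_pos hq (by positivity)) hup).trans ?_
    rw [Real.log_mul hC.ne' (by positivity), Real.log_pow]
    push_cast
    linarith [Real.log_le_sub_one_of_pos hC, Real.log_le_sub_one_of_pos hRs]
  have h2 : Real.log c ≤ Real.log ((T.q x y + s ^ 2) / s ^ 2) := Real.log_le_log V.cpos hlow
  have h3 : R / s ≤ 1 / (4 * ε) + ε * (R ^ 2 / s ^ 2) := by
    have h := mul_nonneg hε.le (sq_nonneg (R / s - 1 / (2 * ε)))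
    have e' : ε * (R / s - 1 / (2 * ε)) ^ 2 = ε * (R ^ 2 / s ^ 2) + 1 / (4 * ε) - R / s := by
      field_simp; ring
    linarith
  have h4 := neg_abs_le (Real.log c)
  have h5 : 0 ≤ ε * (R ^ 2 / s ^ 2) := by positivity
  have h6 : 0 ≤ 1 / (4 * ε) := by positivity
  rw [e, abs_le]
  constructor <;> linarith [abs_nonneg (Real.log c)]

theorem meas_pot_atom (V : T.Valid μ vol pt r c C) (S : Space μ vol pt r A) (s : ℝ) (x : X) :
    Measurable fun p => T.pot s x (pt p) :=
  (Real.measurable_log.comp ((V.meas_q S x).add_const _)).div_const 2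

theorem meas_pot_cell (V : T.Valid μ vol pt r c C) (s : ℝ) (x : X) :
    Measurable fun y => T.pot s x y :=
  (Real.measurable_log.comp
    ((V.qMeas.comp (measurable_const.prodMk measurable_id)).add_const _)).div_const 2

/-- The density, as the limit of the concentrated part. -/
theorem lead_integral_tendsto (V : T.Valid μ vol pt r c C) (S : Space μ vol pt r A) (x : X) :
    Tendsto (fun s => ∫ p, T.lead pt s x p ∂μ) (𝓝[>] 0)
      (𝓝 (-((∫ p, T.D 0 x p ∂μ) + ∫ y, T.E 0 x y ∂vol))) := by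
  have hG : Tendsto (fun s => ∫ p, (T.D s x p - T.lead pt s x p) ∂μ) (𝓝[>] 0)
      (𝓝 (∫ p, T.D 0 x p ∂μ)) := by
    refine tendsto_integral_filter_of_dominated_convergence
      (fun p => (2 / c ^ 2 + C) * (T.rt x p ^ 2 / r x (pt p) ^ 4 + 1 / r x (pt p)))
      (Eventually.of_forall fun s => ((V.DMeas s x).sub (V.meas_lead_at S s x)).aestronglyMeasurable) ?_
      ((V.dom_atoms S x).const_mul _) ?_
    · filter_upwards [eventually_small one_pos] with s hs
      filter_upwards [S.atoms_off x] with p hp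
      rw [Real.norm_eq_abs]; exact V.rest_dom hs.1 hs.2 hp
    · filter_upwards [S.atoms_off x] with p hp
      simpa using (V.Dlim x p hp).sub (V.lead_tendsto hp)
  have hE : Tendsto (fun s => ∫ y, T.E s x y ∂vol) (𝓝[>] 0) (𝓝 (∫ y, T.E 0 x y ∂vol)) := by
    refine tendsto_integral_filter_of_dominated_convergence
      (fun y => C * (T.rho y ^ 2 + (1 + 1 / r x y ^ 3)))
      (Eventually.of_forall fun s => (V.EMeas s x).aestronglyMeasurable) ?_
      ((V.dom_cells S x).const_mul _) ?_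
    · filter_upwards [eventually_small one_pos] with s hs
      filter_upwards [S.cells_off x] with y hy
      rw [Real.norm_eq_abs]; exact V.E_dom hs.1 hs.2 hy
    · filter_upwards [S.cells_off x] with y hy
      exact V.Elim x y hy
  refine (hG.add hE).neg.congr' ?_
  filter_upwards [eventually_small one_pos] with s hs
  rw [integral_sub (V.int_D S hs.1 hs.2 x) (V.int_lead S hs.1 x)]
  linarith [V.ident s x hs.1 hs.2]

theorem lead_integral_le (V : T.Valid μ vol pt r c C) (S : Space μ vol pt r A) :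
    ∃ B : ℝ, ∀ x s, 0 < s → s ≤ 1 → ∫ p, T.lead pt s x p ∂μ ≤ B := by
  refine ⟨(2 / c ^ 2 + C) * (C + (μ.real Set.univ + 8 * A))
    + C * ((∫ y, T.rho y ^ 2 ∂vol) + (vol.real Set.univ + (vol.real Set.univ + 32 * A))),
    fun x s hs hs1 => ?_⟩
  have := S.finVol
  have := S.finAtoms
  have hK : 0 ≤ 2 / c ^ 2 + C := by
    have := V.Cnn
    positivity
  have hi := S.atoms_int x hs 1
  simp only [pow_one] at hi
  have hrt : Integrable (fun p => T.rt x p ^ 2 / regD (r x (pt p)) s ^ 4) μ := by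
    refine ((V.int_rest_bound S hs x).sub hi).congr (ae_of_all _ fun p => ?_)
    simp [Pi.sub_apply]
  have h1 : |∫ p, (T.D s x p - T.lead pt s x p) ∂μ| ≤ (2 / c ^ 2 + C) * (C + (μ.real Set.univ + 8 * A)) := by
    refine abs_integral_le_integral_abs.trans ((integral_mono_of_nonneg (ae_of_all _ fun p => abs_nonneg _)
      ((V.int_rest_bound S hs x).const_mul _) (ae_of_all _ fun p => V.rest_le hs hs1 x p)).trans ?_)
    rw [integral_const_mul, integral_add hrt hi]
    exact mul_le_mul_of_nonneg_left (add_le_add (V.rtInt x s hs hs1) (S.atoms_inv x hs)) hK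
  have h2 : |∫ y, T.E s x y ∂vol|
      ≤ C * ((∫ y, T.rho y ^ 2 ∂vol) + (vol.real Set.univ + (vol.real Set.univ + 32 * A))) := by
    have hb : Integrable (fun y => T.rho y ^ 2 + (1 + 1 / regD (r x y) s ^ 3)) vol :=
      V.int_rho_sq.add ((integrable_const 1).add (S.cells_int x hs 3))
    refine abs_integral_le_integral_abs.trans ((integral_mono_of_nonneg (ae_of_all _ fun p => abs_nonneg _)
      (hb.const_mul C) (ae_of_all _ fun y => (V.Ebound s x y hs hs1).trans ?_)).trans ?_)
    · rw [mul_div_assoc]; exact mul_le_mul_of_nonneg_left (V.rho_inv_le hs x y) V.Cnn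
    · have hb2 : Integrable (fun y => 1 + 1 / regD (r x y) s ^ 3) vol :=
        (integrable_const 1).add (S.cells_int x hs 3)
      rw [integral_const_mul, integral_add V.int_rho_sq hb2,
        integral_add (integrable_const 1) (S.cells_int x hs 3), integral_const, smul_eq_mul, mul_one]
      exact mul_le_mul_of_nonneg_left
        (add_le_add le_rfl (add_le_add le_rfl (S.cells_inv_cube x hs))) V.Cnn
  have h3 := V.ident s x hs hs1
  rw [integral_sub (V.int_D S hs hs1 x) (V.int_lead S hs x)] at h1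
  linarith [(abs_le.1 h1).1, (abs_le.1 h2).1]

end TestData.Valid

end Vale.Agent.P204.Est
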