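import Mathlib
import Vale.Agent.P204.Est.Limit

/-!
# P204: the density function and the limit of the logarithmic averages
-/

open MeasureTheory Filter Set
open scoped Topology

namespace Vale.Agent.P204.Est

variable {Ω X : Type*} [MeasurableSpace Ω] [MeasurableSpace X] {μ : Measure Ω} {vol : Measure X}
  {pt : Ω → X} {r : X → X → ℝ} {A c C : ℝ} {T : TestData Ω X}

namespace TestData.Valid

/-- The concentrated part has small mean over the points. -/
theorem lead_volume_le (V : T.Valid μ vol pt r c C) (S : Space μ vol pt r A) {s : ℝ} (hs : 0 < s)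
    (hs2 : s ≤ 1 / 2) :
    ∫ x, (∫ p, T.lead pt s x p ∂μ) ∂vol ≤
      μ.real Set.univ * (2 * C / c ^ 2 * (vol.real Set.univ + 80 * A)) * s := by
  have := S.finVol
  have := S.finAtoms
  have hint : Integrable (Function.uncurry fun x p => T.lead pt s x p) (vol.prod μ) :=
    Integrable.of_bound (V.meas_lead S s).aestronglyMeasurable (2 * C / c ^ 2 / s ^ 2)
      (ae_of_all _ fun z => by
        show ‖T.lead pt s z.1 z.2‖ ≤ _
        rw [Real.norm_of_nonneg (V.lead_nonneg s z.1 z.2)]; exact V.lead_le_one hs z.1 z.2)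
  rw [integral_integral_swap hint]
  have := V.cpos
  have hK : 0 ≤ 2 * C / c ^ 2 := by
    have := V.Cnn
    positivity
  have hp : ∀ p, ∫ x, T.lead pt s x p ∂vol ≤ 2 * C / c ^ 2 * (vol.real Set.univ + 80 * A) * s := fun p => by
    refine (integral_mono_of_nonneg (ae_of_all _ fun x => V.lead_nonneg s x p)
      (((S.cells_int (pt p) hs 4).const_mul (s ^ 2)).const_mul (2 * C / c ^ 2))
      (ae_of_all _ fun x => ?_)).trans ?_
    · refine (V.lead_le hs x p).trans_eq ?_
      show _ = 2 * C / c ^ 2 * (s ^ 2 * (1 / regD (r (pt p) x) s ^ 4))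
      rw [S.symm x (pt p)]; ring
    rw [integral_const_mul, integral_const_mul, mul_assoc]
    refine mul_le_mul_of_nonneg_left ?_ hK
    refine (mul_le_mul_of_nonneg_left (S.cells_inv_four (pt p) hs hs2) (sq_nonneg s)).trans ?_
    have hl : s * Real.log (1 / s) ≤ 1 := by
      have h := mul_le_mul_of_nonneg_left (Real.log_le_sub_one_of_pos (one_div_pos.2 hs)) hs.le
      rw [mul_sub, mul_one_div_cancel hs.ne'] at h
      linarith
    have h1 : s ^ 2 * vol.real Set.univ ≤ s * vol.real Set.univ :=
      mul_le_mul_of_nonneg_right (by nlinarith) measureReal_nonneg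
    have h2 : s ^ 2 * (80 * A * Real.log (1 / s)) ≤ s * (80 * A) := by
      refine le_trans (le_of_eq (by ring)) ((mul_le_mul_of_nonneg_left hl
        (show 0 ≤ s * (80 * A) by have := S.Ann; positivity)).trans_eq (mul_one _))
    linarith
  refine (integral_mono_of_nonneg (ae_of_all _ fun p => integral_nonneg fun x => V.lead_nonneg s x p)
    (integrable_const _) (ae_of_all _ hp)).trans_eq ?_
  rw [integral_const, smul_eq_mul]
  ring

/-- The average of the potential against the test form tends to minus the density. -/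
theorem pair_tendsto (V : T.Valid μ vol pt r c C) (S : Space μ vol pt r A) (x : X) :
    Tendsto (fun s => T.pair μ vol pt s x / Real.log (1 / s)) (𝓝[>] 0)
      (𝓝 ((∫ p, T.D 0 x p ∂μ) + ∫ y, T.E 0 x y ∂vol)) := by
  have := S.finVol
  have := S.finAtoms
  set P := |Real.log c| + (C * A ^ 2 + 1)
  have hP : 0 ≤ P := add_nonneg (abs_nonneg _) (by have := V.Cnn; positivity)
  have hratio : ∀ s, 0 < s → s ≤ 1 / 2 → ∀ y, |T.pot s x y / Real.log (1 / s)| ≤ 2 * P + 1 := fun s hs hs2 y => by
    have hL := half_le_log_inv hs hs2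
    rw [abs_div, abs_of_pos (lt_of_lt_of_le (by norm_num) hL), div_le_iff₀ (lt_of_lt_of_le (by norm_num) hL)]
    have := V.pot_abs S hs hs2 x y
    nlinarith
  have hpot : ∀ y, 0 < r x y → Tendsto (fun s => T.pot s x y / Real.log (1 / s)) (𝓝[>] 0) (𝓝 0) := fun y hy => by
    have hq : 0 < T.q x y := (mul_pos V.cpos (pow_pos hy 2)).trans_le (V.qlow x y)
    refine Tendsto.div_atTop (a := Real.log (T.q x y) / 2) ?_ tendsto_log_inv
    have h : ContinuousAt (fun s : ℝ => T.pot s x y) 0 := by
      unfold TestData.pot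
      fun_prop (disch := positivity)
    have e : T.pot 0 x y = Real.log (T.q x y) / 2 := by simp [TestData.pot]
    simpa [e] using h.tendsto.mono_left nhdsWithin_le_nhds
  have hA : Tendsto (fun s => ∫ p, T.pot s x (pt p) / Real.log (1 / s) * (T.D s x p - T.lead pt s x p) ∂μ)
      (𝓝[>] 0) (𝓝 0) := by
    rw [show (𝓝 (0 : ℝ)) = 𝓝 (∫ _ : Ω, (0 : ℝ) ∂μ) by simp]
    refine tendsto_integral_filter_of_dominated_convergence
      (fun p => (2 * P + 1) * ((2 / c ^ 2 + C) * (T.rt x p ^ 2 / r x (pt p) ^ 4 + 1 / r x (pt p))))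
      (Eventually.of_forall fun s => (((V.meas_pot_atom S s x).div_const _).mul
        ((V.DMeas s x).sub (V.meas_lead_at S s x))).aestronglyMeasurable) ?_
      (((V.dom_atoms S x).const_mul _).const_mul _) ?_
    · filter_upwards [eventually_small (show (0 : ℝ) < 1 / 2 by norm_num)] with s hs
      filter_upwards [S.atoms_off x] with p hp
      rw [norm_mul, Real.norm_eq_abs, Real.norm_eq_abs]
      exact mul_le_mul (hratio s hs.1 hs.2 _) (V.rest_dom hs.1 (hs.2.trans (by norm_num)) hp)
        (abs_nonneg _) (by linarith)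
    · filter_upwards [S.atoms_off x] with p hp
      simpa using (hpot (pt p) hp).mul ((V.Dlim x p hp).sub (V.lead_tendsto hp))
  have hB : Tendsto (fun s => ∫ y, T.pot s x y / Real.log (1 / s) * T.E s x y ∂vol) (𝓝[>] 0) (𝓝 0) := by
    rw [show (𝓝 (0 : ℝ)) = 𝓝 (∫ _ : X, (0 : ℝ) ∂vol) by simp]
    refine tendsto_integral_filter_of_dominated_convergence
      (fun y => (2 * P + 1) * (C * (T.rho y ^ 2 + (1 + 1 / r x y ^ 3))))
      (Eventually.of_forall fun s => (((V.meas_pot_cell s x).div_const _).mul
        (V.EMeas s x)).aestronglyMeasurable) ?_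
      (((V.dom_cells S x).const_mul _).const_mul _) ?_
    · filter_upwards [eventually_small (show (0 : ℝ) < 1 / 2 by norm_num)] with s hs
      filter_upwards [S.cells_off x] with y hy
      rw [norm_mul, Real.norm_eq_abs, Real.norm_eq_abs]
      exact mul_le_mul (hratio s hs.1 hs.2 _) (V.E_dom hs.1 (hs.2.trans (by norm_num)) hy)
        (abs_nonneg _) (by linarith)
    · filter_upwards [S.cells_off x] with y hy
      simpa using (hpot y hy).mul (V.Elim x y hy)
  obtain ⟨B, hB'⟩ := V.lead_integral_le S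
  have hC : Tendsto
      (fun s => ∫ p, (T.pot s x (pt p) / Real.log (1 / s) + 1) * T.lead pt s x p ∂μ) (𝓝[>] 0) (𝓝 0) := by
    rw [Metric.tendsto_nhds]
    intro η hη
    set K := 2 * C / c ^ 2
    have hK : 0 ≤ K := by
      have := V.Cnn
      have := V.cpos
      positivity
    set U := μ.real Set.univ
    have hU : 0 ≤ U := measureReal_nonneg
    have hA0 := S.Ann
    set ε := η / (2 * (K * (2 * U + 20 * A) + 1))
    have hε : 0 < ε := by positivity
    set P2 := |Real.log c| + (C + 1) + 1 / (4 * ε)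
    have hev : ∀ᶠ s in 𝓝[>] (0 : ℝ), |P2 * B| / Real.log (1 / s) < η / 2 :=
      ((tendsto_const_nhds (x := |P2 * B|)).div_atTop tendsto_log_inv).eventually
        (Iio_mem_nhds (half_pos hη))
    filter_upwards [eventually_small (show (0 : ℝ) < 1 / 2 by norm_num), hev] with s hs hsη
    obtain ⟨hs0, hs2⟩ := hs
    have hL := half_le_log_inv hs0 hs2
    have hL0 : 0 < Real.log (1 / s) := by linarith
    rw [Real.dist_eq, sub_zero]
    have hpt : ∀ p, |(T.pot s x (pt p) / Real.log (1 / s) + 1) * T.lead pt s x p|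
        ≤ (P2 * T.lead pt s x p + ε * K * (1 / regD (r x (pt p)) s ^ 2)) / Real.log (1 / s) := fun p => by
      have hR := regD_pos (r x (pt p)) hs0
      have hl0 := V.lead_nonneg s x p
      rw [le_div_iff₀ hL0, abs_mul, abs_of_nonneg hl0, mul_right_comm]
      have e : |T.pot s x (pt p) / Real.log (1 / s) + 1| * Real.log (1 / s)
          = |T.pot s x (pt p) + Real.log (1 / s)| := by
        rw [← abs_of_pos hL0, ← abs_mul, abs_of_pos hL0, add_mul, one_mul, div_mul_cancel₀ _ hL0.ne']
      rw [e]
      refine (mul_le_mul_of_nonneg_right (V.pot_shift hs0 hε x (pt p)) hl0).trans ?_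
      rw [add_mul]
      refine add_le_add le_rfl ?_
      calc ε * (regD (r x (pt p)) s ^ 2 / s ^ 2) * T.lead pt s x p
          ≤ ε * (regD (r x (pt p)) s ^ 2 / s ^ 2) * (K * (s ^ 2 / regD (r x (pt p)) s ^ 4)) :=
            mul_le_mul_of_nonneg_left (V.lead_le hs0 x p) (by positivity)
        _ = ε * K * (1 / regD (r x (pt p)) s ^ 2) := by field_simp
    refine lt_of_le_of_lt (abs_integral_le_integral_abs.trans (integral_mono_of_nonneg
      (ae_of_all _ fun p => abs_nonneg _)
      ((((V.int_lead S hs0 x).const_mul P2).add ((S.atoms_int x hs0 2).const_mul (ε * K))).div_const _)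
      (ae_of_all _ hpt))) ?_
    simp only [Pi.add_apply]
    rw [integral_div, integral_add ((V.int_lead S hs0 x).const_mul P2)
      ((S.atoms_int x hs0 2).const_mul (ε * K)), integral_const_mul, integral_const_mul, div_lt_iff₀ hL0]
    have h0 : 0 ≤ ∫ p, T.lead pt s x p ∂μ := integral_nonneg fun p => V.lead_nonneg s x p
    have hP2 : 0 ≤ P2 := by
      have := abs_nonneg (Real.log c)
      have := V.Cnn
      positivity
    have h1 : P2 * ∫ p, T.lead pt s x p ∂μ ≤ |P2 * B| :=
      (mul_le_mul_of_nonneg_left (hB' x s hs0 (hs2.trans (by norm_num))) hP2).trans (le_abs_self _)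
    rw [div_lt_iff₀ hL0] at hsη
    have h2 : ε * K * ∫ p, 1 / regD (r x (pt p)) s ^ 2 ∂μ
        ≤ ε * (K * (2 * U + 20 * A)) * Real.log (1 / s) := by
      refine (mul_le_mul_of_nonneg_left (S.atoms_inv_sq x hs0 hs2) (by positivity)).trans ?_
      refine le_trans (mul_le_mul_of_nonneg_left (?_ : _ ≤ (2 * U + 20 * A) * Real.log (1 / s))
        (by positivity)) (le_of_eq (by ring))
      nlinarith
    have h3 : ε * (K * (2 * U + 20 * A)) ≤ η / 2 := by
      simp only [ε]
      rw [div_mul_eq_mul_div, div_le_iff₀ (by positivity)]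
      nlinarith
    nlinarith
  have hlead := V.lead_integral_tendsto S x
  have hsum := ((hA.add hB).add hC).sub hlead
  simp only [add_zero, zero_sub, neg_neg] at hsum
  refine hsum.congr' ?_
  filter_upwards [eventually_small (show (0 : ℝ) < 1 / 2 by norm_num)] with s hs
  obtain ⟨hs0, hs2⟩ := hs
  have hs1 : s ≤ 1 := hs2.trans (by norm_num)
  set L := Real.log (1 / s)
  have hm : AEStronglyMeasurable (fun p => T.pot s x (pt p) / L) μ :=
    ((V.meas_pot_atom S s x).div_const _).aestronglyMeasurable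
  have hbd : ∀ᵐ p ∂μ, ‖T.pot s x (pt p) / L‖ ≤ 2 * P + 1 := ae_of_all _ fun p => hratio s hs0 hs2 _
  have iD : Integrable (fun p => T.pot s x (pt p) / L * T.D s x p) μ :=
    (V.int_D S hs0 hs1 x).bdd_mul hm hbd
  have il : Integrable (fun p => T.pot s x (pt p) / L * T.lead pt s x p) μ :=
    (V.int_lead S hs0 x).bdd_mul hm hbd
  simp only [mul_sub, add_mul, one_mul]
  rw [integral_sub iD il, integral_add il (V.int_lead S hs0 x), TestData.pair, add_div,
    ← integral_div, ← integral_div]
  simp only [div_mul_eq_mul_div]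
  ring

/-- The density function. -/
theorem exists_density (V : T.Valid μ vol pt r c C) (S : Space μ vol pt r A) :
    ∃ (ν : X → ℝ) (B : ℝ), Measurable ν ∧ (∀ x, 0 ≤ ν x ∧ ν x ≤ B) ∧ (∀ᵐ x ∂vol, ν x = 0) ∧
      (∀ x η, 0 < η → ∀ᶠ t in 𝓝[>] (0 : ℝ), μ.real {p | r x (pt p) ≤ t} ≤ (B * ν x + η) * t ^ 2) ∧
      (∀ x, Tendsto (fun s => T.pair μ vol pt s x / Real.log (1 / s)) (𝓝[>] 0) (𝓝 (-ν x))) ∧
      ∀ᶠ s in 𝓝[>] (0 : ℝ), ∀ x, |T.pair μ vol pt s x / Real.log (1 / s)| ≤ B := by
  have := S.finVol
  have := S.finAtoms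
  obtain ⟨B₀, hB₀⟩ := V.lead_integral_le S
  set ν : X → ℝ := fun x => -((∫ p, T.D 0 x p ∂μ) + ∫ y, T.E 0 x y ∂vol) with hν
  have hlim : ∀ x, Tendsto (fun s => ∫ p, T.lead pt s x p ∂μ) (𝓝[>] 0) (𝓝 (ν x)) :=
    fun x => V.lead_integral_tendsto S x
  have hnn : ∀ x, 0 ≤ ν x := fun x => ge_of_tendsto (hlim x)
    (Eventually.of_forall fun s => integral_nonneg fun p => V.lead_nonneg s x p)
  have hle : ∀ x, ν x ≤ B₀ := fun x => le_of_tendsto (hlim x)
    ((eventually_small one_pos).mono fun s hs => hB₀ x s hs.1 hs.2)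
  have hmI : ∀ n, Measurable fun x => ∫ p, T.lead pt (scale n) x p ∂μ := fun n =>
    ((V.meas_lead S (scale n)).stronglyMeasurable.integral_prod_right').measurable
  have hmν : Measurable ν :=
    measurable_of_tendsto_metrizable hmI (tendsto_pi_nhds.2 fun x => (hlim x).comp tendsto_scale)
  have hae : ∀ᵐ x ∂vol, ν x = 0 := by
    have hdc : Tendsto (fun n => ∫ x, (∫ p, T.lead pt (scale n) x p ∂μ) ∂vol) atTop (𝓝 (∫ x, ν x ∂vol)) :=
      tendsto_integral_of_dominated_convergence (fun _ => |B₀|)
        (fun n => (hmI n).aestronglyMeasurable) (integrable_const _)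
        (fun n => ae_of_all _ fun x => by
          rw [Real.norm_of_nonneg (integral_nonneg fun p => V.lead_nonneg _ x p)]
          exact (hB₀ x _ (scale_mem n).1 ((scale_mem n).2.trans (by norm_num))).trans (le_abs_self _))
        (ae_of_all _ fun x => (hlim x).comp tendsto_scale)
    have h0 : Tendsto (fun n => μ.real Set.univ * (2 * C / c ^ 2 * (vol.real Set.univ + 80 * A)) * scale n)
        atTop (𝓝 0) := by
      simpa using (tendsto_nhdsWithin_iff.1 tendsto_scale).1.const_mul
        (μ.real Set.univ * (2 * C / c ^ 2 * (vol.real Set.univ + 80 * A)))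
    have hz : ∫ x, ν x ∂vol = 0 := le_antisymm (le_of_tendsto_of_tendsto' hdc h0
      fun n => V.lead_volume_le S (scale_mem n).1 (scale_mem n).2) (integral_nonneg hnn)
    refine (integral_eq_zero_iff_of_nonneg hnn ?_).1 hz
    exact Integrable.of_bound hmν.aestronglyMeasurable B₀ (ae_of_all _ fun x => by
      rw [Real.norm_of_nonneg (hnn x)]; exact hle x)
  have hcpos := V.cpos
  have hCnn := V.Cnn
  set κ := (C + 1) ^ 2 / (2 * c)
  set P := |Real.log c| + (C * A ^ 2 + 1)
  set P2 := |Real.log c| + (C + 1) + 1 / 4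
  set K := 2 * C / c ^ 2
  set U := μ.real Set.univ
  have hU : 0 ≤ U := measureReal_nonneg
  set W := vol.real Set.univ
  set rest := (2 / c ^ 2 + C) * (C + (U + 8 * A))
  set Ew := C * ((∫ y, T.rho y ^ 2 ∂vol) + (W + (W + 32 * A)))
  set Bf := (2 * P + 1) * (rest + Ew) + (|B₀| + 2 * (P2 * |B₀|) + K * (2 * U + 20 * A))
  refine ⟨ν, max B₀ (max κ Bf), hmν, fun x => ⟨hnn x, (hle x).trans (le_max_left _ _)⟩, hae,
    fun x η hη => ?_, fun x => by simpa [ν] using V.pair_tendsto S x, ?_⟩
  · have hκ : 0 < κ := by positivity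
    have hev : ∀ᶠ t in 𝓝[>] (0 : ℝ), ∫ p, T.lead pt t x p ∂μ < ν x + η / κ :=
      (hlim x).eventually (Iio_mem_nhds (lt_add_of_pos_right _ (div_pos hη hκ)))
    filter_upwards [eventually_small one_pos, hev] with t ht hI
    obtain ⟨ht0, -⟩ := ht
    set D := {p | r x (pt p) ≤ t}
    have hD : MeasurableSet D := measurableSet_le (S.meas_atom x) measurable_const
    have h1 : μ.real D ≤ κ * t ^ 2 * ∫ p, T.lead pt t x p ∂μ := by
      have e : μ.real D = ∫ p, D.indicator (fun _ => (1 : ℝ)) p ∂μ := by
        rw [integral_indicator_const (1 : ℝ) hD, smul_eq_mul, mul_one]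
      rw [e, ← integral_const_mul]
      refine integral_mono ((integrable_const _).indicator hD) ((V.int_lead S ht0 x).const_mul _)
        fun p => ?_
      by_cases hp : p ∈ D
      · rw [Set.indicator_of_mem hp]
        have hq := V.den_pos ht0 x (pt p)
        have hq2 : T.q x (pt p) + t ^ 2 ≤ (C + 1) * t ^ 2 := by
          have := (V.qhigh x (pt p)).trans
            (mul_le_mul_of_nonneg_left (pow_le_pow_left₀ (S.rnn x _) (show r x (pt p) ≤ t from hp) 2) hCnn)
          linarith
        show (1 : ℝ) ≤ κ * t ^ 2 * T.lead pt t x p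
        rw [TestData.lead, ← mul_div_assoc, one_le_div (by positivity)]
        refine (pow_le_pow_left₀ hq.le hq2 2).trans ?_
        rw [show κ * t ^ 2 * (2 * t ^ 2 * T.gl p) = (C + 1) ^ 2 * t ^ 4 * (T.gl p / c) by
          simp only [κ]; field_simp]
        refine le_trans (le_of_eq (by ring)) (le_mul_of_one_le_right (by positivity) ?_)
        rw [one_le_div hcpos]; exact V.glow p
      · rw [Set.indicator_of_notMem hp]
        exact mul_nonneg (by positivity) (V.lead_nonneg t x p)
    refine h1.trans ?_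
    calc κ * t ^ 2 * ∫ p, T.lead pt t x p ∂μ ≤ κ * t ^ 2 * (ν x + η / κ) :=
          mul_le_mul_of_nonneg_left hI.le (by positivity)
      _ = (κ * ν x + η) * t ^ 2 := by field_simp
      _ ≤ _ := by
          refine mul_le_mul_of_nonneg_right (add_le_add ?_ le_rfl) (sq_nonneg t)
          exact mul_le_mul_of_nonneg_right ((le_max_left _ _).trans (le_max_right _ _)) (hnn x)
  · filter_upwards [eventually_small (show (0 : ℝ) < 1 / 2 by norm_num)] with s hs x
    obtain ⟨hs0, hs2⟩ := hs
    have hs1 : s ≤ 1 := hs2.trans (by norm_num)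
    set L := Real.log (1 / s)
    have hL : 1 / 2 ≤ L := half_le_log_inv hs0 hs2
    have hL0 : 0 < L := by linarith
    have hP : 0 ≤ P := add_nonneg (abs_nonneg _) (by positivity)
    have hP2 : 0 ≤ P2 := by positivity
    have hA0 := S.Ann
    have hK : 0 ≤ K := by positivity
    have hr : ∀ y, |T.pot s x y| ≤ (2 * P + 1) * L := fun y => by
      have := V.pot_abs S hs0 hs2 x y
      nlinarith
    have ib := (V.int_rest_bound S hs0 x).const_mul (2 / c ^ 2 + C)
    have il := V.int_lead S hs0 x
    have i2 := (S.atoms_int x hs0 2).const_mul K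
    have hpt : ∀ p, |T.pot s x (pt p) * T.D s x p| ≤
        ((2 * P + 1) * L * ((2 / c ^ 2 + C) * (T.rt x p ^ 2 / regD (r x (pt p)) s ^ 4 + 1 / regD (r x (pt p)) s))
          + L * T.lead pt s x p)
        + (P2 * T.lead pt s x p + K * (1 / regD (r x (pt p)) s ^ 2)) := fun p => by
      have hR := regD_pos (r x (pt p)) hs0
      have hl0 := V.lead_nonneg s x p
      have e : T.pot s x (pt p) * T.D s x p = T.pot s x (pt p) * (T.D s x p - T.lead pt s x p)
          + ((T.pot s x (pt p) + L) * T.lead pt s x p - L * T.lead pt s x p) := by ring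
      have h1 : |(T.pot s x (pt p) + L) * T.lead pt s x p|
          ≤ P2 * T.lead pt s x p + K * (1 / regD (r x (pt p)) s ^ 2) := by
        rw [abs_mul, abs_of_nonneg hl0]
        refine (mul_le_mul_of_nonneg_right (V.pot_shift hs0 one_pos x (pt p)) hl0).trans ?_
        rw [add_mul, mul_one, one_mul]
        refine add_le_add le_rfl ?_
        calc regD (r x (pt p)) s ^ 2 / s ^ 2 * T.lead pt s x p
            ≤ regD (r x (pt p)) s ^ 2 / s ^ 2 * (K * (s ^ 2 / regD (r x (pt p)) s ^ 4)) :=
              mul_le_mul_of_nonneg_left (V.lead_le hs0 x p) (by positivity)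
          _ = K * (1 / regD (r x (pt p)) s ^ 2) := by field_simp
      have h2 : |T.pot s x (pt p) * (T.D s x p - T.lead pt s x p)| ≤ (2 * P + 1) * L *
          ((2 / c ^ 2 + C) * (T.rt x p ^ 2 / regD (r x (pt p)) s ^ 4 + 1 / regD (r x (pt p)) s)) := by
        rw [abs_mul]
        exact mul_le_mul (hr _) (V.rest_le hs0 hs1 x p) (abs_nonneg _) (by positivity)
      have h3 : 0 ≤ L * T.lead pt s x p := mul_nonneg hL0.le hl0
      rw [e]
      have h4 := abs_sub ((T.pot s x (pt p) + L) * T.lead pt s x p) (L * T.lead pt s x p)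
      rw [abs_of_nonneg h3] at h4
      exact (abs_add_le _ _).trans (by linarith)
    have hrt0 : ∫ p, (2 / c ^ 2 + C) * (T.rt x p ^ 2 / regD (r x (pt p)) s ^ 4 + 1 / regD (r x (pt p)) s) ∂μ
        ≤ rest := by
      have hi := S.atoms_int x hs0 1
      simp only [pow_one] at hi
      have hrt : Integrable (fun p => T.rt x p ^ 2 / regD (r x (pt p)) s ^ 4) μ := by
        refine ((V.int_rest_bound S hs0 x).sub hi).congr (ae_of_all _ fun p => ?_)
        simp [Pi.sub_apply]
      rw [integral_const_mul, integral_add hrt hi]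
      exact mul_le_mul_of_nonneg_left (add_le_add (V.rtInt x s hs0 hs1) (S.atoms_inv x hs0)) (by positivity)
    have hIl : ∫ p, T.lead pt s x p ∂μ ≤ |B₀| := (hB₀ x s hs0 hs1).trans (le_abs_self _)
    have hDb : |∫ p, T.pot s x (pt p) * T.D s x p ∂μ| ≤ ((2 * P + 1) * L * rest + L * |B₀|)
        + (P2 * |B₀| + K * (U + 20 * A * L)) := by
      refine abs_integral_le_integral_abs.trans ((integral_mono_of_nonneg
        (ae_of_all _ fun p => abs_nonneg _)
        (((ib.const_mul ((2 * P + 1) * L)).add (il.const_mul L)).add ((il.const_mul P2).add i2))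
        (ae_of_all _ hpt)).trans ?_)
      simp only [Pi.add_apply]
      rw [integral_add ((ib.const_mul ((2 * P + 1) * L)).fun_add (il.const_mul L))
          ((il.const_mul P2).fun_add i2),
        integral_add (ib.const_mul ((2 * P + 1) * L)) (il.const_mul L),
        integral_add (il.const_mul P2) i2]
      simp only [integral_const_mul] at hrt0 ⊢
      gcongr
      exact S.atoms_inv_sq x hs0 hs2
    have hEb : |∫ y, T.pot s x y * T.E s x y ∂vol| ≤ (2 * P + 1) * L * Ew := by
      have hb : Integrable (fun y => 1 + 1 / regD (r x y) s ^ 3) vol :=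
        (integrable_const 1).add (S.cells_int x hs0 3)
      refine abs_integral_le_integral_abs.trans ((integral_mono_of_nonneg
        (ae_of_all _ fun p => abs_nonneg _) (((V.int_rho_sq.add hb).const_mul C).const_mul ((2 * P + 1) * L))
        (ae_of_all _ fun y => ?_)).trans ?_)
      · simp only [Pi.add_apply]
        rw [abs_mul]
        refine mul_le_mul (hr y) ((V.Ebound s x y hs0 hs1).trans ?_) (abs_nonneg _) (by positivity)
        rw [mul_div_assoc]
        exact mul_le_mul_of_nonneg_left (V.rho_inv_le hs0 x y) hCnn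
      · simp only [Pi.add_apply]
        rw [integral_const_mul, integral_const_mul, integral_add V.int_rho_sq hb,
          integral_add (integrable_const 1) (S.cells_int x hs0 3), integral_const, smul_eq_mul, mul_one]
        simp only [Ew]
        gcongr
        exact S.cells_inv_cube x hs0
    rw [abs_div, abs_of_pos hL0, div_le_iff₀ hL0, TestData.pair]
    refine (abs_add_le _ _).trans ((add_le_add hDb hEb).trans ?_)
    have h6 : Bf * L ≤ max B₀ (max κ Bf) * L :=
      mul_le_mul_of_nonneg_right ((le_max_right _ _).trans (le_max_right _ _)) hL0.le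
    refine le_trans ?_ h6
    simp only [Bf]
    nlinarith [mul_nonneg (mul_nonneg hP2 (abs_nonneg B₀)) (sub_nonneg.2 hL), mul_nonneg (mul_nonneg hK hU) (sub_nonneg.2 hL)]

end TestData.Valid

end Vale.Agent.P204.Est
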