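import Mathlib
import Vale.Agent.P204.Est.Space

/-!
# P204: the differential of the averaged potential is small against atoms and against the regular part

`rt` is the transversal part of the displacement, `th` the angle between the lines of two atoms.
-/

open MeasureTheory Filter Set
open scoped Topology

namespace Vale.Agent.P204.Est

variable {Ω X : Type*} [MeasurableSpace Ω] [MeasurableSpace X] {μ : Measure Ω} {vol : Measure X}
  {pt : Ω → X} {r : X → X → ℝ} {A : ℝ}

/-- The bound of the differential of the test form on a pair of atoms. -/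
noncomputable def pairKernel (pt : Ω → X) (r : X → X → ℝ) (rt : X → Ω → ℝ) (th : Ω → Ω → ℝ)
    (s : ℝ) (z : Ω × Ω) : ℝ :=
  rt (pt z.1) z.2 * th z.1 z.2 / regD (r (pt z.1) (pt z.2)) s ^ 4
    + rt (pt z.1) z.2 / regD (r (pt z.1) (pt z.2)) s ^ 3
    + th z.1 z.2 / regD (r (pt z.1) (pt z.2)) s ^ 2 + 1 / regD (r (pt z.1) (pt z.2)) s

namespace Space

/-- The energy bound, by the weighted arithmetic mean. -/
theorem energy (S : Space μ vol pt r A) {rt : X → Ω → ℝ} {th : Ω → Ω → ℝ} {C : ℝ}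
    (hrtm : Measurable (Function.uncurry rt)) (hthm : Measurable (Function.uncurry th))
    (hrt : ∀ x p, |rt x p| ≤ C * r x (pt p)) (hth : ∀ p q, |th p q| ≤ C)
    (hrtI : ∀ x s, 0 < s → s ≤ 1 → ∫ p, rt x p ^ 2 / regD (r x (pt p)) s ^ 4 ∂μ ≤ C)
    (hthI : ∀ s, 0 < s → s ≤ 1 / 2 →
      ∫ q, (∫ p, th q p ^ 2 / regD (r (pt q) (pt p)) s ^ 4 ∂μ) ∂μ ≤ C * Real.log (1 / s)) :
    ∃ B : ℝ, ∀ s, 0 < s → s ≤ 1 / 2 → Integrable (pairKernel pt r rt th s) (μ.prod μ) ∧
      ∫ z, pairKernel pt r rt th s z ∂(μ.prod μ) ≤ B * Real.sqrt (Real.log (1 / s)) := by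
  have := S.finAtoms
  set U := μ.real Set.univ
  refine ⟨U * C + U * (2 * U + 20 * A) + C + U * U + 2 * (U * (U + 8 * A)), fun s hs hs2 => ?_⟩
  have hs1 : s ≤ 1 := hs2.trans (by norm_num)
  set L := Real.log (1 / s)
  have hL : 1 / 2 ≤ L := half_le_log_inv hs hs2
  set a := Real.sqrt L
  have ha : 0 < a := Real.sqrt_pos.2 (by linarith)
  have ha2 : a ^ 2 = L := Real.sq_sqrt (by linarith)
  set R := fun z : Ω × Ω => regD (r (pt z.1) (pt z.2)) s
  have hR : ∀ z, 0 < R z := fun z => regD_pos _ hs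
  have hRm : Measurable R := measurable_regD
    (S.rMeas.comp ((S.ptMeas.comp measurable_fst).prodMk (S.ptMeas.comp measurable_snd))) s
  have hrtm' : Measurable fun z : Ω × Ω => rt (pt z.1) z.2 :=
    hrtm.comp ((S.ptMeas.comp measurable_fst).prodMk measurable_snd)
  have hthm' : Measurable fun z : Ω × Ω => th z.1 z.2 := hthm
  have hbd : ∀ (f : Ω × Ω → ℝ) (K : ℝ), Measurable f → (∀ z, |f z| ≤ K) → Integrable f (μ.prod μ) :=
    fun f K hf hK => Integrable.of_bound hf.aestronglyMeasurable K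
      (ae_of_all _ fun z => by rw [Real.norm_eq_abs]; exact hK z)
  have hRs : ∀ z (j : ℕ), |1 / R z ^ j| ≤ 1 / s ^ j := fun z j => by
    rw [abs_of_nonneg (one_div_nonneg.2 (pow_nonneg (hR z).le j))]; exact inv_regD_le _ hs j
  have hC : ∀ z : Ω × Ω, 0 ≤ C := fun z => (abs_nonneg _).trans (hth z.1 z.2)
  have i1 : Integrable (fun z => rt (pt z.1) z.2 ^ 2 / R z ^ 4) (μ.prod μ) :=
    hbd _ ((C * A) ^ 2 * (1 / s ^ 4)) ((hrtm'.pow_const 2).div (hRm.pow_const 4)) fun z => by
      rw [div_eq_mul_one_div, abs_mul, abs_of_nonneg (sq_nonneg _)]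
      refine mul_le_mul (sq_le_sq.2 ?_) (hRs z 4) (abs_nonneg _) (sq_nonneg _)
      refine (hrt _ _).trans ((mul_le_mul_of_nonneg_left (S.rle _ _) (hC z)).trans (le_abs_self _))
  have i2 : Integrable (fun z => th z.1 z.2 ^ 2 / R z ^ 4) (μ.prod μ) :=
    hbd _ (C ^ 2 * (1 / s ^ 4)) ((hthm'.pow_const 2).div (hRm.pow_const 4)) fun z => by
      rw [div_eq_mul_one_div, abs_mul, abs_of_nonneg (sq_nonneg _)]
      exact mul_le_mul (sq_le_sq.2 ((hth _ _).trans (le_abs_self _))) (hRs z 4) (abs_nonneg _) (sq_nonneg _)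
  have i3 : Integrable (fun z => 1 / R z ^ 2) (μ.prod μ) :=
    hbd _ _ (measurable_const.div (hRm.pow_const 2)) fun z => hRs z 2
  have i4 : Integrable (fun z => 1 / R z) (μ.prod μ) :=
    hbd _ (1 / s) (measurable_const.div hRm) fun z => by simpa using hRs z 1
  have i5 : Integrable (fun _ : Ω × Ω => (1 : ℝ)) (μ.prod μ) := integrable_const 1
  set G := fun z => (a * (rt (pt z.1) z.2 ^ 2 / R z ^ 4) + (1 / a) * (th z.1 z.2 ^ 2 / R z ^ 4))
    + ((1 / a) * (1 / R z ^ 2) + a * (1 : ℝ)) + 1 / R z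
  have iG : Integrable G (μ.prod μ) :=
    (((i1.const_mul a).add (i2.const_mul (1 / a))).add ((i3.const_mul (1 / a)).add (i5.const_mul a))).add i4
  have hpt : ∀ z, |pairKernel pt r rt th s z| ≤ G z := fun z => by
    show |rt (pt z.1) z.2 * th z.1 z.2 / R z ^ 4 + rt (pt z.1) z.2 / R z ^ 3
      + th z.1 z.2 / R z ^ 2 + 1 / R z| ≤ _
    have h0 := hR z
    set u := rt (pt z.1) z.2
    set v := th z.1 z.2
    set T := R z
    -- each term is at most a weighted half-sum of two squares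
    have amgm : ∀ X Y : ℝ, |X * Y| ≤ a / 2 * X ^ 2 + 1 / a / 2 * Y ^ 2 := fun X Y => by
      have e1 : a / 2 * (X - Y / a) ^ 2 = a / 2 * X ^ 2 + 1 / a / 2 * Y ^ 2 - X * Y := by field_simp; ring
      have e2 : a / 2 * (X + Y / a) ^ 2 = a / 2 * X ^ 2 + 1 / a / 2 * Y ^ 2 + X * Y := by field_simp; ring
      have p1 : 0 ≤ a / 2 * (X - Y / a) ^ 2 := by positivity
      have p2 : 0 ≤ a / 2 * (X + Y / a) ^ 2 := by positivity
      rw [abs_le]; constructor <;> linarith
    have t1 := amgm (u / T ^ 2) (v / T ^ 2)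
    have t2 := amgm (u / T ^ 2) (1 / T)
    have t3 := amgm 1 (v / T ^ 2)
    have t4 : |1 / T| = 1 / T := abs_of_pos (by positivity)
    rw [show u / T ^ 2 * (v / T ^ 2) = u * v / T ^ 4 by ring,
      show (u / T ^ 2) ^ 2 = u ^ 2 / T ^ 4 by ring, show (v / T ^ 2) ^ 2 = v ^ 2 / T ^ 4 by ring] at t1
    rw [show u / T ^ 2 * (1 / T) = u / T ^ 3 by ring,
      show (u / T ^ 2) ^ 2 = u ^ 2 / T ^ 4 by ring, show (1 / T : ℝ) ^ 2 = 1 / T ^ 2 by ring] at t2
    rw [one_mul, show (v / T ^ 2) ^ 2 = v ^ 2 / T ^ 4 by ring, one_pow] at t3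
    have h1 := abs_add_le (u * v / T ^ 4 + u / T ^ 3 + v / T ^ 2) (1 / T)
    have h2 := abs_add_le (u * v / T ^ 4 + u / T ^ 3) (v / T ^ 2)
    have h3 := abs_add_le (u * v / T ^ 4) (u / T ^ 3)
    have n1 : 0 ≤ 1 / a * (1 / T ^ 2) := by positivity
    simp only [G]
    linarith
  have hm : Measurable (pairKernel pt r rt th s) := by
    exact ((((hrtm'.mul hthm').div (hRm.pow_const 4)).add (hrtm'.div (hRm.pow_const 3))).add
      (hthm'.div (hRm.pow_const 2))).add (measurable_const.div hRm)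
  have iK : Integrable (pairKernel pt r rt th s) (μ.prod μ) :=
    iG.mono' hm.aestronglyMeasurable (ae_of_all _ fun z => by rw [Real.norm_eq_abs]; exact hpt z)
  refine ⟨iK, (integral_mono iK iG fun z => (le_abs_self _).trans (hpt z)).trans ?_⟩
  have b1 : ∫ z, rt (pt z.1) z.2 ^ 2 / R z ^ 4 ∂(μ.prod μ) ≤ U * C := by
    rw [integral_prod _ i1]
    refine (integral_mono i1.integral_prod_left (integrable_const C) fun q => hrtI (pt q) s hs hs1).trans_eq ?_
    rw [integral_const, smul_eq_mul]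
  have b2 : ∫ z, th z.1 z.2 ^ 2 / R z ^ 4 ∂(μ.prod μ) ≤ C * L := by
    rw [integral_prod _ i2]
    exact hthI s hs hs2
  have b3 : ∫ z, 1 / R z ^ 2 ∂(μ.prod μ) ≤ U * (U + 20 * A * L) := by
    rw [integral_prod _ i3]
    refine (integral_mono i3.integral_prod_left (integrable_const _) fun q => S.atoms_inv_sq (pt q) hs hs2).trans_eq ?_
    rw [integral_const, smul_eq_mul]
  have b4 : ∫ z, 1 / R z ∂(μ.prod μ) ≤ U * (U + 8 * A) := by
    rw [integral_prod _ i4]
    refine (integral_mono i4.integral_prod_left (integrable_const _) fun q => S.atoms_inv (pt q) hs).trans_eq ?_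
    rw [integral_const, smul_eq_mul]
  have b5 : ∫ _z : Ω × Ω, (1 : ℝ) ∂(μ.prod μ) = U * U := by
    rw [integral_prod _ i5]; simp [U]
  simp only [G]
  rw [integral_add (((i1.const_mul a).fun_add (i2.const_mul (1 / a))).fun_add
      ((i3.const_mul (1 / a)).fun_add (i5.const_mul a))) i4,
    integral_add ((i1.const_mul a).fun_add (i2.const_mul (1 / a))) ((i3.const_mul (1 / a)).fun_add (i5.const_mul a)),
    integral_add (i1.const_mul a) (i2.const_mul (1 / a)), integral_add (i3.const_mul (1 / a)) (i5.const_mul a)]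
  simp only [integral_const_mul]
  rw [b5]
  have hU : 0 ≤ U := measureReal_nonneg
  have hAn := S.Ann
  have hLa : 1 / a * L = a := by rw [← ha2]; field_simp
  have c1 : a * (∫ z, rt (pt z.1) z.2 ^ 2 / R z ^ 4 ∂(μ.prod μ)) ≤ U * C * a := by
    rw [mul_comm]; exact mul_le_mul_of_nonneg_right b1 ha.le
  have c2 : 1 / a * (∫ z, th z.1 z.2 ^ 2 / R z ^ 4 ∂(μ.prod μ)) ≤ C * a := by
    refine (mul_le_mul_of_nonneg_left b2 (by positivity)).trans_eq ?_
    rw [mul_left_comm, hLa]
  have c3 : 1 / a * (∫ z, 1 / R z ^ 2 ∂(μ.prod μ)) ≤ U * (2 * U + 20 * A) * a := by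
    refine (mul_le_mul_of_nonneg_left (b3.trans (?_ : _ ≤ U * (2 * U + 20 * A) * L)) (by positivity)).trans_eq ?_
    · nlinarith [mul_nonneg hU hU]
    · rw [mul_left_comm, hLa]
  have c4 : U * (U + 8 * A) ≤ 2 * (U * (U + 8 * A)) * a := by
    have : 1 / 2 ≤ a := Real.le_sqrt_of_sq_le (by norm_num; linarith)
    nlinarith [mul_nonneg hU (show 0 ≤ U + 8 * A by positivity)]
  linarith [b4]

/-- An `L²` function against the cubic potential of the atoms is negligible. -/
theorem rho_small (S : Space μ vol pt r A) {ρ : X → ℝ} (hρm : Measurable ρ) (hρ : MemLp ρ 2 vol)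
    (hρ0 : ∀ x, 0 ≤ ρ x) :
    (∀ s, 0 < s → Integrable (fun z : Ω × X => ρ z.2 / regD (r (pt z.1) z.2) s ^ 3) (μ.prod vol)) ∧
      Tendsto (fun s => (∫ z : Ω × X, ρ z.2 / regD (r (pt z.1) z.2) s ^ 3 ∂(μ.prod vol))
        / Real.log (1 / s)) (𝓝[>] 0) (𝓝 0) := by
  have := S.finAtoms
  have := S.finVol
  have hρ1 : Integrable ρ vol := hρ.integrable one_le_two
  have hRm : ∀ s, Measurable fun z : Ω × X => regD (r (pt z.1) z.2) s := fun s =>
    measurable_regD (S.rMeas.comp ((S.ptMeas.comp measurable_fst).prodMk measurable_snd)) s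
  have hint : ∀ s, 0 < s →
      Integrable (fun z : Ω × X => ρ z.2 / regD (r (pt z.1) z.2) s ^ 3) (μ.prod vol) := fun s hs => by
    refine Integrable.mono' ((hρ1.comp_snd μ).const_mul (1 / s ^ 3))
      ((hρm.comp measurable_snd).div ((hRm s).pow_const 3)).aestronglyMeasurable (ae_of_all _ fun z => ?_)
    rw [Real.norm_of_nonneg (div_nonneg (hρ0 _) (pow_nonneg (regD_pos _ hs).le 3)), div_eq_mul_one_div,
      mul_comm]
    exact mul_le_mul_of_nonneg_right (inv_regD_le _ hs 3) (hρ0 _)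
  refine ⟨hint, ?_⟩
  -- the square norm of the tail beyond `K` tends to zero
  set tail : ℕ → X → ℝ := fun K x => if (K : ℝ) < ρ x then ρ x ^ 2 else 0
  have htm : ∀ K, Measurable (tail K) := fun K =>
    Measurable.ite (measurableSet_lt measurable_const hρm) (hρm.pow_const 2) measurable_const
  have htle : ∀ K x, ‖tail K x‖ ≤ ρ x ^ 2 := fun K x => by
    simp only [tail]
    split_ifs <;> simp [sq_nonneg]
  have htail : Tendsto (fun K => ∫ x, tail K x ∂vol) atTop (𝓝 0) := by
    rw [show (𝓝 (0 : ℝ)) = 𝓝 (∫ _ : X, (0 : ℝ) ∂vol) by simp]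
    refine tendsto_integral_of_dominated_convergence (fun x => ρ x ^ 2)
      (fun K => (htm K).aestronglyMeasurable) hρ.integrable_sq (fun K => ae_of_all _ (htle K))
      (ae_of_all _ fun x => tendsto_const_nhds.congr' ?_)
    obtain ⟨N, hN⟩ := exists_nat_ge (ρ x)
    filter_upwards [eventually_ge_atTop N] with K hK
    exact (if_neg (not_lt.2 (hN.trans (Nat.cast_le.2 hK)))).symm
  set U := μ.real Set.univ
  set W := vol.real Set.univ
  have hU : 0 ≤ U := measureReal_nonneg
  have hW : 0 ≤ W := measureReal_nonneg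
  have hA := S.Ann
  rw [Metric.tendsto_nhds]
  intro η hη
  set D := (2 * U + 20 * A) + U * (2 * W + 80 * A) + 1
  have hD : 0 < D := by positivity
  set ε := η / (2 * D)
  have hε : 0 < ε := by positivity
  obtain ⟨K, hK⟩ := (htail.eventually (Iio_mem_nhds (show (0 : ℝ) < ε ^ 2 by positivity))).exists
  have hev : ∀ᶠ s in 𝓝[>] (0 : ℝ), (K : ℝ) * (U * (W + 32 * A)) / Real.log (1 / s) < η / 2 :=
    ((tendsto_const_nhds (x := (K : ℝ) * (U * (W + 32 * A)))).div_atTop tendsto_log_inv).eventually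
      (Iio_mem_nhds (half_pos hη))
  filter_upwards [eventually_small (show (0 : ℝ) < 1 / 2 by norm_num), hev] with s hs hsη
  obtain ⟨hs0, hs2⟩ := hs
  have hL := half_le_log_inv hs0 hs2
  have hL0 : 0 < Real.log (1 / s) := by linarith
  set R := fun z : Ω × X => regD (r (pt z.1) z.2) s
  have hR : ∀ z, 0 < R z := fun z => regD_pos _ hs0
  have hbd : ∀ j : ℕ, Integrable (fun z => 1 / R z ^ j) (μ.prod vol) := fun j =>
    Integrable.of_bound (measurable_const.div ((hRm s).pow_const j)).aestronglyMeasurable (1 / s ^ j)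
      (ae_of_all _ fun z => by
        rw [Real.norm_of_nonneg (one_div_nonneg.2 (pow_nonneg (hR z).le j))]; exact inv_regD_le _ hs0 j)
  have ht2 : Integrable (fun z => tail K z.2 * (1 / R z ^ 2)) (μ.prod vol) := by
    refine Integrable.mono' ((hρ.integrable_sq.comp_snd μ).const_mul (1 / s ^ 2))
      (((htm K).comp measurable_snd).mul (measurable_const.div ((hRm s).pow_const 2))).aestronglyMeasurable
      (ae_of_all _ fun z => ?_)
    rw [norm_mul, Real.norm_of_nonneg (one_div_nonneg.2 (pow_nonneg (hR z).le 2)), mul_comm]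
    exact mul_le_mul (inv_regD_le _ hs0 2) (htle K z.2) (norm_nonneg _) (by positivity)
  have hpt : ∀ z, ρ z.2 / R z ^ 3
      ≤ (K : ℝ) * (1 / R z ^ 3) + ((1 / ε) * (tail K z.2 * (1 / R z ^ 2)) + ε * (1 / R z ^ 4)) := fun z => by
    have h0 := hR z
    simp only [tail]
    by_cases h : (K : ℝ) < ρ z.2
    · rw [if_pos h]
      have e : 1 / ε * (ρ z.2 / R z - ε / R z ^ 2) ^ 2
          = 1 / ε * (ρ z.2 ^ 2 * (1 / R z ^ 2)) + ε * (1 / R z ^ 4) - 2 * (ρ z.2 / R z ^ 3) := by
        field_simp; ring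
      have : 0 ≤ 1 / ε * (ρ z.2 / R z - ε / R z ^ 2) ^ 2 := by positivity
      have : 0 ≤ ρ z.2 / R z ^ 3 := div_nonneg (hρ0 _) (by positivity)
      have : 0 ≤ (K : ℝ) * (1 / R z ^ 3) := by positivity
      linarith
    · rw [if_neg h, zero_mul, mul_zero, zero_add, ← mul_div_assoc, mul_one]
      exact le_add_of_le_of_nonneg (div_le_div_of_nonneg_right (not_lt.1 h) (by positivity)) (by positivity)
  have hb := integral_mono (hint s hs0) (((hbd 3).const_mul (K : ℝ)).add
    ((ht2.const_mul (1 / ε)).add ((hbd 4).const_mul ε))) hpt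
  simp only [Pi.add_apply] at hb
  rw [integral_add ((hbd 3).const_mul (K : ℝ)) ((ht2.const_mul (1 / ε)).fun_add ((hbd 4).const_mul ε)),
    integral_add (ht2.const_mul (1 / ε)) ((hbd 4).const_mul ε), integral_const_mul, integral_const_mul,
    integral_const_mul] at hb
  have b3 : ∫ z, 1 / R z ^ 3 ∂(μ.prod vol) ≤ U * (W + 32 * A) := by
    rw [integral_prod _ (hbd 3)]
    refine (integral_mono (hbd 3).integral_prod_left (integrable_const _)
      fun q => S.cells_inv_cube (pt q) hs0).trans_eq ?_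
    rw [integral_const, smul_eq_mul]
  have b4 : ∫ z, 1 / R z ^ 4 ∂(μ.prod vol) ≤ U * (2 * W + 80 * A) * Real.log (1 / s) := by
    rw [integral_prod _ (hbd 4)]
    refine (integral_mono (hbd 4).integral_prod_left (integrable_const _)
      fun q => S.cells_inv_four (pt q) hs0 hs2).trans ?_
    rw [integral_const, smul_eq_mul, mul_assoc U]
    refine mul_le_mul_of_nonneg_left ?_ hU
    nlinarith
  have b2 : ∫ z, tail K z.2 * (1 / R z ^ 2) ∂(μ.prod vol)
      ≤ ε ^ 2 * (2 * U + 20 * A) * Real.log (1 / s) := by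
    rw [integral_prod_symm _ ht2]
    have hi : Integrable (tail K) vol :=
      Integrable.mono' hρ.integrable_sq (htm K).aestronglyMeasurable (ae_of_all _ (htle K))
    refine (integral_mono ht2.integral_prod_right
      (hi.mul_const (U + 20 * A * Real.log (1 / s))) fun y => ?_).trans ?_
    · simp only
      rw [integral_const_mul]
      refine mul_le_mul_of_nonneg_left ?_ (by simp only [tail]; split_ifs <;> positivity)
      simp only [R, S.symm _ y]
      exact S.atoms_inv_sq y hs0 hs2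
    · rw [integral_mul_const, mul_assoc (ε ^ 2)]
      refine mul_le_mul hK.le ?_ (by positivity) (sq_nonneg ε)
      nlinarith
  have hnn : 0 ≤ ∫ z : Ω × X, ρ z.2 / R z ^ 3 ∂(μ.prod vol) :=
    integral_nonneg fun z => div_nonneg (hρ0 _) (pow_nonneg (hR z).le 3)
  rw [Real.dist_eq, sub_zero, abs_of_nonneg (div_nonneg hnn hL0.le), div_lt_iff₀ hL0]
  rw [div_lt_iff₀ hL0] at hsη
  have c2 : 1 / ε * ∫ z, tail K z.2 * (1 / R z ^ 2) ∂(μ.prod vol)
      ≤ ε * (2 * U + 20 * A) * Real.log (1 / s) :=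
    (mul_le_mul_of_nonneg_left b2 (by positivity)).trans_eq (by field_simp)
  have c3 := mul_le_mul_of_nonneg_left b3 (Nat.cast_nonneg (α := ℝ) K)
  have c4 := mul_le_mul_of_nonneg_left b4 hε.le
  have e : ε * D = η / 2 := by simp only [ε]; field_simp
  have c5 : ε * D * Real.log (1 / s) = ε * (2 * U + 20 * A) * Real.log (1 / s)
      + ε * (U * (2 * W + 80 * A) * Real.log (1 / s)) + ε * Real.log (1 / s) := by
    simp only [D]; ring
  rw [e] at c5
  have c6 : 0 < ε * Real.log (1 / s) := mul_pos hε hL0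
  linarith

/-- Two `L²` functions against the cubic potential of the points. -/
theorem rho_self (S : Space μ vol pt r A) {ρ : X → ℝ} (hρm : Measurable ρ) (hρ : MemLp ρ 2 vol)
    (hρ0 : ∀ x, 0 ≤ ρ x) :
    ∃ B : ℝ, ∀ s, 0 < s →
      Integrable (fun z : X × X => ρ z.1 * ρ z.2 / regD (r z.1 z.2) s ^ 3) (vol.prod vol) ∧
      ∫ z : X × X, ρ z.1 * ρ z.2 / regD (r z.1 z.2) s ^ 3 ∂(vol.prod vol) ≤ B := by
  have := S.finVol
  set W := vol.real Set.univ + 32 * A
  refine ⟨(∫ x, ρ x ^ 2 ∂vol) * W, fun s hs => ?_⟩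
  set R := fun z : X × X => regD (r z.1 z.2) s
  have hR : ∀ z, 0 < R z := fun z => regD_pos _ hs
  have hRm : Measurable R := measurable_regD S.rMeas s
  have hside : ∀ f : X × X → X, Measurable f → Integrable (fun z => ρ (f z) ^ 2) (vol.prod vol) →
      Integrable (fun z => ρ (f z) ^ 2 * (1 / R z ^ 3)) (vol.prod vol) := fun f hf hi => by
    refine Integrable.mono' (hi.mul_const (1 / s ^ 3))
      (((hρm.comp hf).pow_const 2).mul (measurable_const.div (hRm.pow_const 3))).aestronglyMeasurable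
      (ae_of_all _ fun z => ?_)
    rw [norm_mul, Real.norm_of_nonneg (sq_nonneg _),
      Real.norm_of_nonneg (one_div_nonneg.2 (pow_nonneg (hR z).le 3))]
    exact mul_le_mul_of_nonneg_left (inv_regD_le _ hs 3) (sq_nonneg _)
  have i1 := hside Prod.fst measurable_fst (hρ.integrable_sq.comp_fst vol)
  have i2 := hside Prod.snd measurable_snd (hρ.integrable_sq.comp_snd vol)
  have hpt : ∀ z, ρ z.1 * ρ z.2 / R z ^ 3
      ≤ (1 / 2) * (ρ z.1 ^ 2 * (1 / R z ^ 3)) + (1 / 2) * (ρ z.2 ^ 2 * (1 / R z ^ 3)) := fun z => by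
    rw [div_eq_mul_one_div, ← mul_add, ← add_mul, ← mul_assoc]
    refine mul_le_mul_of_nonneg_right ?_ (one_div_nonneg.2 (pow_nonneg (hR z).le 3))
    nlinarith [sq_nonneg (ρ z.1 - ρ z.2)]
  have iK : Integrable (fun z => ρ z.1 * ρ z.2 / R z ^ 3) (vol.prod vol) :=
    Integrable.mono' ((i1.const_mul (1 / 2)).add (i2.const_mul (1 / 2)))
      (((hρm.comp measurable_fst).mul (hρm.comp measurable_snd)).div (hRm.pow_const 3)).aestronglyMeasurable
      (ae_of_all _ fun z => by
        rw [Real.norm_of_nonneg (div_nonneg (mul_nonneg (hρ0 _) (hρ0 _)) (pow_nonneg (hR z).le 3))]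
        exact hpt z)
  refine ⟨iK, (integral_mono iK ((i1.const_mul (1 / 2)).add (i2.const_mul (1 / 2))) hpt).trans ?_⟩
  simp only [Pi.add_apply]
  rw [integral_add (i1.const_mul (1 / 2)) (i2.const_mul (1 / 2)), integral_const_mul, integral_const_mul]
  have b1 : ∫ z, ρ z.1 ^ 2 * (1 / R z ^ 3) ∂(vol.prod vol) ≤ (∫ x, ρ x ^ 2 ∂vol) * W := by
    rw [integral_prod _ i1, ← integral_mul_const]
    refine integral_mono i1.integral_prod_left (hρ.integrable_sq.mul_const W) fun x => ?_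
    simp only [R]
    rw [integral_const_mul]
    exact mul_le_mul_of_nonneg_left (S.cells_inv_cube x hs) (sq_nonneg _)
  have b2 : ∫ z, ρ z.2 ^ 2 * (1 / R z ^ 3) ∂(vol.prod vol) ≤ (∫ x, ρ x ^ 2 ∂vol) * W := by
    rw [integral_prod_symm _ i2, ← integral_mul_const]
    refine integral_mono i2.integral_prod_right (hρ.integrable_sq.mul_const W) fun y => ?_
    simp only [R, S.symm _ y]
    rw [integral_const_mul]
    exact mul_le_mul_of_nonneg_left (S.cells_inv_cube y hs) (sq_nonneg _)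
  linarith

end Space

end Vale.Agent.P204.Est
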