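import Mathlib
import Vale.Agent.P204.Est.Apriori

/-!
# P204: the last step, without forms and without a manifold

`m` is the measure of the atoms and `rho p q` their quasi-distance. The smoothed pairing `Q ε p q`
of two atoms is bounded below by minus `C ε² ker 3 ε (rho p q)`.
-/

open MeasureTheory Filter Topology

namespace Vale.Agent.P204.Est

section pairing

variable {α : Type*} [MeasurableSpace α] {μ : Measure α} {ι : Type*} {l : Filter ι}

/-- A bounded family in `L²` pairs to zero with a family tending to zero in `L²`. -/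
theorem tendsto_pair_zero {f g : ι → α → ℝ} {B : ℝ}
    (hf : ∀ᶠ i in l, MemLp (f i) 2 μ ∧ ∫ x, f i x ^ 2 ∂μ ≤ B) (hg : ∀ᶠ i in l, MemLp (g i) 2 μ)
    (hg0 : Tendsto (fun i => ∫ x, g i x ^ 2 ∂μ) l (𝓝 0)) :
    Tendsto (fun i => ∫ x, f i x * g i x ∂μ) l (𝓝 0) := by
  have h1 : Tendsto (fun i => Real.sqrt B * Real.sqrt (∫ x, g i x ^ 2 ∂μ)) l (𝓝 0) := by
    simpa using ((Real.continuous_sqrt.tendsto 0).comp hg0).const_mul (Real.sqrt B)
  refine squeeze_zero_norm' ?_ h1
  filter_upwards [hf, hg] with i hi hi'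
  rw [Real.norm_eq_abs]
  refine (abs_integral_mul_le hi.1 hi').trans ?_
  exact mul_le_mul_of_nonneg_right (Real.sqrt_le_sqrt hi.2) (Real.sqrt_nonneg _)

/-- A family bounded in `L²` and null in `L¹` pairs to zero with a convergent family in `L²`. -/
theorem tendsto_pair_of_L1_null [IsFiniteMeasure μ] {f h : ι → α → ℝ} {h₀ : α → ℝ} {B : ℝ}
    (hf : ∀ᶠ i in l, MemLp (f i) 2 μ ∧ ∫ x, f i x ^ 2 ∂μ ≤ B)
    (hf1 : Tendsto (fun i => ∫ x, |f i x| ∂μ) l (𝓝 0))
    (hh : ∀ᶠ i in l, MemLp (h i) 2 μ) (hh₀ : MemLp h₀ 2 μ)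
    (hconv : Tendsto (fun i => ∫ x, (h i x - h₀ x) ^ 2 ∂μ) l (𝓝 0)) :
    Tendsto (fun i => ∫ x, f i x * h i x ∂μ) l (𝓝 0) := by
  have hd : Tendsto (fun i => ∫ x, f i x * (h i x - h₀ x) ∂μ) l (𝓝 0) :=
    tendsto_pair_zero hf (hh.mono fun i hi => hi.sub hh₀) hconv
  have h0 : Tendsto (fun i => ∫ x, f i x * h₀ x ∂μ) l (𝓝 0) := by
    obtain ⟨h', hh'm, hh'⟩ := hh₀.aestronglyMeasurable
    have hm' : Measurable h' := hh'm.measurable
    have hL : MemLp h' 2 μ := hh₀.ae_eq hh'
    set tail : ℕ → α → ℝ := fun n => {x | (n : ℝ) < |h' x|}.indicator h'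
    have hmeas : ∀ n : ℕ, MeasurableSet {x | (n : ℝ) < |h' x|} := fun n =>
      measurableSet_lt measurable_const hm'.abs
    have htail : Tendsto (fun n : ℕ => ∫ x, tail n x ^ 2 ∂μ) atTop (𝓝 0) := by
      have hdc := tendsto_integral_of_dominated_convergence (μ := μ) (F := fun n x => tail n x ^ 2)
        (f := fun _ => (0 : ℝ)) (fun x => h' x ^ 2)
        (fun n => ((hm'.indicator (hmeas n)).pow_const 2).aestronglyMeasurable) hL.integrable_sq
        (fun n => ae_of_all _ fun x => by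
          simp only [tail, Set.indicator_apply]
          split_ifs <;> simp [sq_nonneg])
        (ae_of_all _ fun x => by
          obtain ⟨N, hN⟩ := exists_nat_ge |h' x|
          refine tendsto_const_nhds.congr' ((eventually_ge_atTop N).mono fun n hn => ?_)
          simp only [tail, Set.indicator_apply, Set.mem_ofPred_eq]
          rw [if_neg (not_lt.2 (hN.trans (Nat.cast_le.2 hn)))]; simp)
      simpa using hdc
    rw [Metric.tendsto_nhds]
    intro η hη
    have h2 : Tendsto (fun n : ℕ => Real.sqrt B * Real.sqrt (∫ x, tail n x ^ 2 ∂μ)) atTop (𝓝 0) := by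
      simpa using ((Real.continuous_sqrt.tendsto 0).comp htail).const_mul (Real.sqrt B)
    obtain ⟨n, hn⟩ := (h2.eventually_lt_const (half_pos hη)).exists
    have h3 : Tendsto (fun i => (n : ℝ) * ∫ x, |f i x| ∂μ) l (𝓝 0) := by
      simpa using hf1.const_mul (n : ℝ)
    filter_upwards [hf, h3.eventually_lt_const (half_pos hη)] with i hi hi3
    have hfi : Integrable (f i) μ := hi.1.integrable one_le_two
    have ht2 : MemLp (tail n) 2 μ := hL.indicator (hmeas n)
    have hft : Integrable (fun x => f i x * tail n x) μ := hi.1.integrable_mul ht2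
    have hfh : Integrable (fun x => f i x * h' x) μ := hi.1.integrable_mul hL
    have heq : ∫ x, f i x * h₀ x ∂μ =
        (∫ x, f i x * (h' x - tail n x) ∂μ) + ∫ x, f i x * tail n x ∂μ := by
      rw [integral_congr_ae (g := fun x => f i x * h' x) (hh'.mono fun x hx => by
        show f i x * h₀ x = f i x * h' x; rw [hx])]
      rw [← integral_add ((hfh.sub hft).congr (ae_of_all _ fun x => by
        show f i x * h' x - f i x * tail n x = _; ring)) hft]
      refine integral_congr_ae (ae_of_all _ fun x => ?_)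
      show f i x * h' x = f i x * (h' x - tail n x) + f i x * tail n x
      ring
    have hb : |∫ x, f i x * (h' x - tail n x) ∂μ| ≤ n * ∫ x, |f i x| ∂μ := by
      refine abs_integral_le_integral_abs.trans ?_
      rw [← integral_const_mul]
      refine integral_mono_of_nonneg (ae_of_all _ fun x => abs_nonneg _) (hfi.abs.const_mul _)
        (ae_of_all _ fun x => ?_)
      show |f i x * (h' x - tail n x)| ≤ (n : ℝ) * |f i x|
      rw [abs_mul, mul_comm (n : ℝ)]
      refine mul_le_mul_of_nonneg_left ?_ (abs_nonneg _)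
      simp only [tail, Set.indicator_apply, Set.mem_ofPred_eq]
      split_ifs with hx
      · simp
      · simpa using not_lt.1 hx
    have hb2 : |∫ x, f i x * tail n x ∂μ| ≤ Real.sqrt B * Real.sqrt (∫ x, tail n x ^ 2 ∂μ) :=
      (abs_integral_mul_le hi.1 ht2).trans
        (mul_le_mul_of_nonneg_right (Real.sqrt_le_sqrt hi.2) (Real.sqrt_nonneg _))
    rw [Real.dist_eq, sub_zero, heq]
    calc |(∫ x, f i x * (h' x - tail n x) ∂μ) + ∫ x, f i x * tail n x ∂μ|
        ≤ _ := abs_add_le _ _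
      _ ≤ _ := add_le_add hb hb2
      _ < η := by linarith
  have hsum := hd.add h0
  rw [add_zero] at hsum
  refine hsum.congr' ?_
  filter_upwards [hf, hh] with i hi hi'
  have i1 : Integrable (fun x => f i x * (h i x - h₀ x)) μ := hi.1.integrable_mul (hi'.sub hh₀)
  have i2 : Integrable (fun x => f i x * h₀ x) μ := hi.1.integrable_mul hh₀
  rw [← integral_add i1 i2]
  refine integral_congr_ae (ae_of_all _ fun x => ?_)
  show f i x * (h i x - h₀ x) + f i x * h₀ x = f i x * h i x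
  ring

end pairing

/-- `t e^{-nt} ≤ 1 / n`. -/
theorem exp_neg_mul_self_le {n t : ℝ} (hn : 0 < n) : Real.exp (-(n * t)) * t ≤ 1 / n := by
  rw [le_div_iff₀ hn]
  calc Real.exp (-(n * t)) * t * n = n * t * Real.exp (-(n * t)) := by ring
    _ ≤ Real.exp (n * t) * Real.exp (-(n * t)) :=
        mul_le_mul_of_nonneg_right (by linarith [Real.add_one_le_exp (n * t)]) (Real.exp_pos _).le
    _ = 1 := by rw [← Real.exp_add]; simp

section density

variable {Ω : Type*} [MeasurableSpace Ω] {m : Measure Ω} [IsFiniteMeasure m]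

/-- The kernel sees only the density at the smallest scales. -/
theorem eventually_kernel_le {r : Ω → ℝ} (hr : Measurable r) (r0 : ∀ q, 0 ≤ r q) {D : ℝ}
    (rD : ∀ q, r q ≤ D) {A : ℝ} (hA : ∀ᶠ t in 𝓝[>] (0 : ℝ), m.real {q | r q ≤ t} ≤ A * t ^ 2)
    {η : ℝ} (hη : 0 < η) :
    ∀ᶠ ε in 𝓝[>] (0 : ℝ), ∫ q, 1 / (1 + r q ^ 2 / ε ^ 2) ^ 3 ∂m ≤ (128 * A + η) * ε ^ 2 := by
  obtain ⟨δ, hδ, hsub⟩ := mem_nhdsGT_iff_exists_Ioc_subset.1 hA
  replace hδ : 0 < δ := hδ
  have hA0 : 0 ≤ A := by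
    have h := measureReal_nonneg.trans (hsub (⟨hδ, le_rfl⟩ : δ ∈ Set.Ioc 0 δ))
    exact nonneg_of_mul_nonneg_left h (pow_pos hδ 2)
  set S : Set Ω := {q | r q ≤ δ}
  have hS : MeasurableSet S := measurableSet_le hr measurable_const
  have hsmall : Tendsto (fun ε : ℝ => m.real Set.univ * ε ^ 4 / δ ^ 6) (𝓝[>] 0) (𝓝 0) := by
    have h : Tendsto (fun ε : ℝ => m.real Set.univ * ε ^ 4 / δ ^ 6) (𝓝 0)
        (𝓝 (m.real Set.univ * 0 ^ 4 / δ ^ 6)) := (by fun_prop : Continuous _).tendsto _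
    simpa using h.mono_left nhdsWithin_le_nhds
  filter_upwards [hsmall.eventually_lt_const hη, Ioc_mem_nhdsGT hδ] with ε hεη hεδ
  have hε : 0 < ε := hεδ.1
  set F : Ω → ℝ := fun q => 1 / (1 + r q ^ 2 / ε ^ 2) ^ 3
  have hF0 : ∀ q, 0 ≤ F q := fun q => by positivity
  have hF1 : ∀ q, F q ≤ 1 := fun q => by
    simp only [F]
    rw [div_le_one (by positivity)]
    exact one_le_pow₀ (le_add_of_nonneg_right (by positivity))
  have hFi : Integrable F m := Integrable.of_bound (Measurable.aestronglyMeasurable (by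
    simp only [F]; fun_prop)) 1 (ae_of_all _ fun q => by
      rw [Real.norm_eq_abs, abs_of_nonneg (hF0 q)]; exact hF1 q)
  have hin : ∫ q in S, F q ∂m ≤ 128 * A * ε ^ 2 := by
    refine kernel_bound hr r0 rD (by norm_num) hε fun t ht => ?_
    rw [measureReal_restrict_apply (measurableSet_le hr measurable_const)]
    rcases le_or_gt t δ with h | h
    · exact (measureReal_mono Set.inter_subset_left).trans
        (hsub (⟨hε.trans_le ht, h⟩ : t ∈ Set.Ioc 0 δ))
    · refine (measureReal_mono Set.inter_subset_right).trans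
        ((hsub (⟨hδ, le_rfl⟩ : δ ∈ Set.Ioc 0 δ)).trans ?_)
      exact mul_le_mul_of_nonneg_left (pow_le_pow_left₀ hδ.le h.le 2) hA0
  have hout : ∫ q in Sᶜ, F q ∂m ≤ m.real Set.univ * (ε ^ 6 / δ ^ 6) := by
    have hb : ∀ q ∈ Sᶜ, F q ≤ ε ^ 6 / δ ^ 6 := fun q hq => by
      have hq' : δ < r q := not_le.1 hq
      have h1 : δ ^ 2 / ε ^ 2 ≤ 1 + r q ^ 2 / ε ^ 2 := by
        have : δ ^ 2 / ε ^ 2 ≤ r q ^ 2 / ε ^ 2 :=
          div_le_div_of_nonneg_right (pow_le_pow_left₀ hδ.le hq'.le 2) (sq_nonneg ε)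
        linarith
      refine (one_div_le_one_div_of_le (by positivity)
        (pow_le_pow_left₀ (by positivity) h1 3)).trans_eq ?_
      rw [div_pow, one_div_div]; ring
    refine (setIntegral_mono_on hFi.integrableOn (integrable_const _).integrableOn hS.compl hb).trans ?_
    rw [setIntegral_const, smul_eq_mul]
    exact mul_le_mul_of_nonneg_right (measureReal_mono (Set.subset_univ _)) (by positivity)
  rw [← integral_add_compl hS hFi]
  have h6 : m.real Set.univ * (ε ^ 6 / δ ^ 6) ≤ η * ε ^ 2 := by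
    calc m.real Set.univ * (ε ^ 6 / δ ^ 6) = m.real Set.univ * ε ^ 4 / δ ^ 6 * ε ^ 2 := by ring
      _ ≤ η * ε ^ 2 := mul_le_mul_of_nonneg_right hεη.le (sq_nonneg ε)
  linarith

variable {rho : Ω → Ω → ℝ}

/-- The negative part allowed to a smoothed pairing: `ε² ker 3 ε`. -/
noncomputable def neg3 (ε t : ℝ) : ℝ := 1 / ε ^ 2 * (1 / (1 + t ^ 2 / ε ^ 2) ^ 3)

theorem neg3_eq {ε : ℝ} (hε : 0 < ε) (t : ℝ) : neg3 ε t = ε ^ 2 * ker 3 ε t := by
  rw [neg3, ker]; field_simp

theorem neg3_nonneg (ε t : ℝ) : 0 ≤ neg3 ε t := by unfold neg3; positivity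

theorem neg3_le {ε : ℝ} (t : ℝ) : neg3 ε t ≤ 1 / ε ^ 2 :=
  mul_le_of_le_one_right (by positivity)
    ((div_le_one (by positivity)).2 (one_le_pow₀ (le_add_of_nonneg_right (by positivity))))

/-- Reverse Fatou: the weighted negative part is at most the weighted density. -/
theorem moment_limsup (hrm : Measurable (Function.uncurry rho)) (r0 : ∀ p q, 0 ≤ rho p q) {D : ℝ}
    (rD : ∀ p q, rho p q ≤ D) {B C' Bν : ℝ} (hC' : 0 ≤ C')
    (hB : ∀ p t, 0 < t → m.real {q | rho p q ≤ t} ≤ B * t ^ 2) {ν h : Ω → ℝ} (hνm : Measurable ν)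
    (hν : ∀ p, 0 ≤ ν p ∧ ν p ≤ Bν) (hhm : Measurable h) (hh : ∀ p, 0 ≤ h p ∧ h p ≤ 1)
    (hd : ∀ p η, 0 < η → ∀ᶠ t in 𝓝[>] (0 : ℝ), m.real {q | rho p q ≤ t} ≤ (C' * ν p + η) * t ^ 2)
    {η : ℝ} (hη : 0 < η) :
    ∀ᶠ ε in 𝓝[>] (0 : ℝ),
      ∫ p, h p * ∫ q, neg3 ε (rho p q) ∂m ∂m ≤ 128 * C' * ∫ p, h p * ν p ∂m + η := by
  rcases isEmpty_or_nonempty Ω with hΩ | hΩ
  · refine Eventually.of_forall fun ε => ?_
    simp [m.eq_zero_of_isEmpty, hη.le]
  obtain ⟨p₀⟩ := hΩ
  have hB0 : 0 ≤ B := by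
    have h := measureReal_nonneg.trans (hB p₀ 1 one_pos); simpa using h
  set I : ℝ → Ω → ℝ := fun ε p => ∫ q, neg3 ε (rho p q) ∂m
  set K := 128 * C'
  set P : ℝ → Ω → ℝ := fun ε p => h p * max (I ε p - K * ν p) 0
  have hrp : ∀ p, Measurable (rho p) := fun p => hrm.of_uncurry_left
  have hI : ∀ ε : ℝ, 0 < ε → (StronglyMeasurable (I ε)) ∧
      ∀ p, 0 ≤ I ε p ∧ I ε p = 1 / ε ^ 2 * ∫ q, 1 / (1 + rho p q ^ 2 / ε ^ 2) ^ 3 ∂m ∧
        I ε p ≤ 128 * B := by
    intro ε hε
    have hm : Measurable fun z : Ω × Ω => neg3 ε (rho z.1 z.2) :=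
      ((((hrm.pow_const 2).div_const (ε ^ 2)).const_add 1).pow_const 3 |>.const_div 1).const_mul
        (1 / ε ^ 2)
    refine ⟨hm.stronglyMeasurable.integral_prod_right', fun p => ?_⟩
    have h1 : I ε p = 1 / ε ^ 2 * ∫ q, 1 / (1 + rho p q ^ 2 / ε ^ 2) ^ 3 ∂m :=
      integral_const_mul _ _
    refine ⟨integral_nonneg fun q => neg3_nonneg _ _, h1, h1.le.trans ?_⟩
    refine (mul_le_mul_of_nonneg_left (kernel_bound (d := 2) (hrp p) (r0 p) (rD p) (by norm_num) hε
      (A := B) fun t ht => hB p t (hε.trans_le ht)) (by positivity)).trans_eq ?_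
    field_simp
  have hP0 : Tendsto (fun ε => ∫ p, P ε p ∂m) (𝓝[>] 0) (𝓝 0) := by
    have hdc := tendsto_integral_filter_of_dominated_convergence (μ := m)
      (l := 𝓝[>] (0 : ℝ)) (F := P) (f := fun _ => 0) (fun _ => 128 * B)
      (by
        filter_upwards [self_mem_nhdsWithin] with ε (hε : 0 < ε)
        exact (hhm.mul (((hI ε hε).1.measurable.sub (hνm.const_mul K)).max
          measurable_const)).aestronglyMeasurable)
      (by
        filter_upwards [self_mem_nhdsWithin] with ε (hε : 0 < ε)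
        refine ae_of_all _ fun p => ?_
        rw [Real.norm_eq_abs, abs_of_nonneg (mul_nonneg (hh p).1 (le_max_right _ _))]
        refine (mul_le_of_le_one_left (le_max_right _ _) (hh p).2).trans (max_le ?_ (by positivity))
        have := (hν p).1
        linarith [((hI ε hε).2 p).2.2, show 0 ≤ K * ν p by positivity])
      (integrable_const _) (ae_of_all _ fun p => by
        rw [Metric.tendsto_nhds]
        intro e he
        have hev := eventually_kernel_le (m := m) (hrp p) (r0 p) (rD p)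
          (hd p (e / 258) (by positivity)) (show 0 < e / 258 by positivity)
        filter_upwards [hev, self_mem_nhdsWithin] with ε hε2 (hε : 0 < ε)
        have h2 : I ε p ≤ K * ν p + 129 * (e / 258) := by
          refine ((hI ε hε).2 p).2.1.le.trans
            ((mul_le_mul_of_nonneg_left hε2 (by positivity)).trans_eq ?_)
          simp only [K]; field_simp; ring
        rw [Real.dist_eq, sub_zero, abs_of_nonneg (mul_nonneg (hh p).1 (le_max_right _ _))]
        exact (mul_le_of_le_one_left (le_max_right _ _) (hh p).2).trans_lt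
          (max_lt (by linarith) he))
    simpa using hdc
  filter_upwards [hP0.eventually_lt_const hη, self_mem_nhdsWithin] with ε hPε (hε0 : 0 < ε)
  have hε := hI ε hε0
  have hKi : Integrable (fun p => K * (h p * ν p)) m :=
    (Integrable.of_bound (hhm.mul hνm).aestronglyMeasurable Bν (ae_of_all _ fun p => by
      show |h p * ν p| ≤ Bν
      rw [abs_of_nonneg (mul_nonneg (hh p).1 (hν p).1)]
      exact (mul_le_of_le_one_left (hν p).1 (hh p).2).trans (hν p).2)).const_mul K
  have hPi : Integrable (P ε) m := Integrable.of_bound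
    (hhm.mul ((hε.1.measurable.sub (hνm.const_mul K)).max measurable_const)).aestronglyMeasurable
    (128 * B) (ae_of_all _ fun p => by
      rw [Real.norm_eq_abs, abs_of_nonneg (mul_nonneg (hh p).1 (le_max_right _ _))]
      refine (mul_le_of_le_one_left (le_max_right _ _) (hh p).2).trans (max_le ?_ (by positivity))
      have := (hν p).1
      linarith [(hε.2 p).2.2, show 0 ≤ K * ν p by positivity])
  refine (integral_mono_of_nonneg (g := fun p => K * (h p * ν p) + P ε p)
    (ae_of_all _ fun p => mul_nonneg (hh p).1 (hε.2 p).1) (hKi.add hPi) (ae_of_all _ fun p => ?_)).trans ?_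
  · simp only [P]
    calc h p * I ε p ≤ h p * (K * ν p + max (I ε p - K * ν p) 0) :=
          mul_le_mul_of_nonneg_left (by linarith [le_max_left (I ε p - K * ν p) 0]) (hh p).1
      _ = _ := by ring
  · rw [integral_add hKi hPi, integral_const_mul]; linarith

/-- The energy identity forces the smoothed part to vanish in the limit. -/
theorem final (hrm : Measurable (Function.uncurry rho)) (r0 : ∀ p q, 0 ≤ rho p q) {D : ℝ}
    (rD : ∀ p q, rho p q ≤ D) {B C' Bν : ℝ} (hC' : 0 ≤ C')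
    (hB : ∀ p t, 0 < t → m.real {q | rho p q ≤ t} ≤ B * t ^ 2) {ν : Ω → ℝ} (hνm : Measurable ν)
    (hν : ∀ p, 0 ≤ ν p ∧ ν p ≤ Bν)
    (hd : ∀ p η, 0 < η → ∀ᶠ t in 𝓝[>] (0 : ℝ), m.real {q | rho p q ≤ t} ≤ (C' * ν p + η) * t ^ 2)
    {Q : ℝ → Ω → Ω → ℝ} {C : ℝ} (hC : 0 ≤ C)
    (hQ : ∀ᶠ ε in 𝓝[>] (0 : ℝ), Measurable (Function.uncurry (Q ε)) ∧
      (∃ b, ∀ p q, |Q ε p q| ≤ b) ∧ ∀ p q, -(C * neg3 ε (rho p q)) ≤ Q ε p q)
    {X : ℕ → ℝ → ℝ} {S : ℝ → ℝ} (hX : ∀ n, 0 < n → Tendsto (X n) (𝓝[>] 0) (𝓝 0))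
    (hid : ∀ n : ℕ, 0 < n → ∀ᶠ ε in 𝓝[>] (0 : ℝ),
      (∫ p, Real.exp (-((n : ℝ) * ν p)) * ∫ q, Q ε p q ∂m ∂m) + X n ε + S ε = 0) :
    ∀ η : ℝ, 0 < η → ∀ᶠ ε in 𝓝[>] (0 : ℝ), S ε ≤ η := by
  intro η hη
  set M := m.real Set.univ
  set K := 128 * C'
  obtain ⟨n, hn⟩ := exists_nat_gt (max 1 (C * K * M / (η / 4)))
  have hn1 : (1 : ℝ) < n := lt_of_le_of_lt (le_max_left _ _) hn
  have hn' : (0 : ℝ) < n := by linarith
  have hnM : C * (K * (M / n)) ≤ η / 4 := by
    rw [← mul_assoc, ← mul_div_assoc, div_le_iff₀ hn']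
    have h := (div_lt_iff₀ (by positivity)).1 (lt_of_le_of_lt (le_max_right _ _) hn)
    linarith
  set h : Ω → ℝ := fun p => Real.exp (-((n : ℝ) * ν p))
  have hhm : Measurable h := Real.measurable_exp.comp (hνm.const_mul _).neg
  have hh : ∀ p, 0 ≤ h p ∧ h p ≤ 1 := fun p => ⟨(Real.exp_pos _).le,
    Real.exp_le_one_iff.2 (by have := (hν p).1; nlinarith)⟩
  have hmom := moment_limsup hrm r0 rD hC' hB hνm hν hhm hh hd
    (show 0 < η / (4 * (C + 1)) by positivity)
  have hhν : ∫ p, h p * ν p ∂m ≤ M / n := by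
    refine (integral_mono_of_nonneg (g := fun _ => 1 / (n : ℝ))
      (ae_of_all _ fun p => mul_nonneg (hh p).1 (hν p).1) (integrable_const _)
      (ae_of_all _ fun p => exp_neg_mul_self_le hn')).trans_eq ?_
    rw [integral_const, smul_eq_mul, mul_one_div]
  filter_upwards [self_mem_nhdsWithin, hmom, hQ,
    hid n (Nat.cast_pos.1 hn'), (hX n (Nat.cast_pos.1 hn')).eventually_const_lt
      (show -(η / 2) < 0 by linarith)] with ε (hε : 0 < ε) hm' hq hid' hX'
  obtain ⟨hQm, ⟨b, hb⟩, hlowQ⟩ := hq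
  have hnm : Measurable fun z : Ω × Ω => neg3 ε (rho z.1 z.2) :=
    ((((hrm.pow_const 2).div_const (ε ^ 2)).const_add 1).pow_const 3 |>.const_div 1).const_mul
      (1 / ε ^ 2)
  have iW : Integrable (fun z : Ω × Ω => h z.1 * Q ε z.1 z.2) (m.prod m) :=
    Integrable.of_bound ((hhm.comp measurable_fst).mul hQm).aestronglyMeasurable b
      (ae_of_all _ fun z => by
        rw [Real.norm_eq_abs, abs_mul, abs_of_nonneg (hh _).1]
        exact (mul_le_of_le_one_left (abs_nonneg _) (hh _).2).trans (hb _ _))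
  have iR : Integrable (fun z : Ω × Ω => h z.1 * neg3 ε (rho z.1 z.2)) (m.prod m) :=
    Integrable.of_bound ((hhm.comp measurable_fst).mul hnm).aestronglyMeasurable (1 / ε ^ 2)
      (ae_of_all _ fun z => by
        rw [Real.norm_eq_abs, abs_mul, abs_of_nonneg (hh _).1, abs_of_nonneg (neg3_nonneg _ _)]
        exact (mul_le_of_le_one_left (neg3_nonneg _ _) (hh _).2).trans (neg3_le _))
  have hlow : -(C * ∫ p, h p * ∫ q, neg3 ε (rho p q) ∂m ∂m) ≤
      ∫ p, h p * ∫ q, Q ε p q ∂m ∂m := by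
    simp only [← integral_const_mul (h _)]
    rw [integral_integral iR, integral_integral iW, ← integral_const_mul, ← integral_neg]
    refine integral_mono (iR.const_mul C).neg iW fun z => ?_
    show -(C * (h z.1 * neg3 ε (rho z.1 z.2))) ≤ h z.1 * Q ε z.1 z.2
    have := mul_le_mul_of_nonneg_left (hlowQ z.1 z.2) (hh z.1).1
    linarith
  have h1 : C * ∫ p, h p * ∫ q, neg3 ε (rho p q) ∂m ∂m ≤ η / 2 := by
    refine (mul_le_mul_of_nonneg_left (hm'.trans (add_le_add_left
      (mul_le_mul_of_nonneg_left hhν (by positivity)) _)) hC).trans ?_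
    rw [mul_add]
    have : C * (η / (4 * (C + 1))) ≤ η / 4 := by
      rw [← mul_div_assoc, div_le_iff₀ (by positivity)]; nlinarith
    linarith
  linarith

end density

section smoothed

variable {X Ω : Type*} [MeasurableSpace X] [MeasurableSpace Ω] {vol : Measure X} [IsFiniteMeasure vol]
  {m : Measure Ω} [IsFiniteMeasure m] {r : X → X → ℝ} {pr : Ω → X} {L A D : ℝ}

/-- The scalar smoothing. -/
noncomputable def conv3 (vol : Measure X) (r : X → X → ℝ) (ε : ℝ) (u : X → ℝ) (x : X) : ℝ :=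
  ∫ y, ker 3 ε (r x y) * u y ∂vol

/-- The scalar smoothing is bounded on `L²`. -/
theorem conv3_sq (G : Geom vol r L A D) {ε : ℝ} (hε : 0 < ε) {u : X → ℝ} (hu : MemLp u 2 vol) :
    MemLp (conv3 vol r ε u) 2 vol ∧
      ∫ x, conv3 vol r ε u x ^ 2 ∂vol ≤ (128 * A) ^ 2 * ∫ x, u x ^ 2 ∂vol := by
  have hkm : Measurable (Function.uncurry fun x y => ker 3 ε (r x y)) :=
    G.meas_ker measurable_id 3 ε
  have hk : AEStronglyMeasurable (fun z : X × X => ker 3 ε (r z.1 z.2)) (vol.prod vol) :=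
    hkm.aestronglyMeasurable
  have hkb : ∀ x y, |ker 3 ε (r x y)| ≤ 1 / ε ^ 4 := fun x y => by
    rw [abs_of_nonneg (ker_nonneg _ _ _)]; exact ker_le 3 hε _
  have hu1 : Integrable u vol := hu.integrable one_le_two
  have hm : AEStronglyMeasurable (conv3 vol r ε u) vol :=
    (hk.mul hu.aestronglyMeasurable.comp_snd).integral_prod_right'
  have hL : MemLp (conv3 vol r ε u) 2 vol := by
    refine MemLp.of_bound hm (1 / ε ^ 4 * ∫ y, |u y| ∂vol) (ae_of_all _ fun x => ?_)
    rw [Real.norm_eq_abs, ← integral_const_mul]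
    refine abs_integral_le_integral_abs.trans (integral_mono_of_nonneg
      (ae_of_all _ fun y => abs_nonneg _) (hu1.abs.const_mul _) (ae_of_all _ fun y => ?_))
    show |ker 3 ε (r x y) * u y| ≤ 1 / ε ^ 4 * |u y|
    rw [abs_mul]; exact mul_le_mul_of_nonneg_right (hkb x y) (abs_nonneg _)
  refine ⟨hL, ?_⟩
  have hprod : Integrable (fun z : X × X => ker 3 ε (r z.1 z.2) * u z.2 ^ 2) (vol.prod vol) :=
    (hu.integrable_sq.comp_snd vol).bdd_mul (c := 1 / ε ^ 4) hk (ae_of_all _ fun z => hkb _ _)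
  have hpt : ∀ x, conv3 vol r ε u x ^ 2 ≤ 128 * A * ∫ y, ker 3 ε (r x y) * u y ^ 2 ∂vol := fun x => by
    have hkx : Measurable fun y => ker 3 ε (r x y) := hkm.of_uncurry_left
    have hs : MemLp (fun y => Real.sqrt (ker 3 ε (r x y))) 2 vol :=
      MemLp.of_bound hkx.sqrt.aestronglyMeasurable (Real.sqrt (1 / ε ^ 4)) (ae_of_all _ fun y => by
        rw [Real.norm_eq_abs, abs_of_nonneg (Real.sqrt_nonneg _)]
        exact Real.sqrt_le_sqrt (ker_le 3 hε _))
    have hsu : MemLp (fun y => Real.sqrt (ker 3 ε (r x y)) * u y) 2 vol :=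
      MemLp.of_le_mul (c := Real.sqrt (1 / ε ^ 4)) hu
        (hkx.sqrt.aestronglyMeasurable.mul hu.aestronglyMeasurable) (ae_of_all _ fun y => by
          rw [norm_mul, Real.norm_eq_abs (Real.sqrt _), abs_of_nonneg (Real.sqrt_nonneg _)]
          exact mul_le_mul_of_nonneg_right (Real.sqrt_le_sqrt (ker_le 3 hε _)) (norm_nonneg _))
    have h := abs_integral_mul_le hs hsu
    have e1 : ∀ y, Real.sqrt (ker 3 ε (r x y)) * (Real.sqrt (ker 3 ε (r x y)) * u y) =
        ker 3 ε (r x y) * u y := fun y => by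
      rw [← mul_assoc, Real.mul_self_sqrt (ker_nonneg _ _ _)]
    have e2 : ∀ y, (Real.sqrt (ker 3 ε (r x y)) * u y) ^ 2 = ker 3 ε (r x y) * u y ^ 2 := fun y => by
      rw [mul_pow, Real.sq_sqrt (ker_nonneg _ _ _)]
    have e3 : ∀ y, Real.sqrt (ker 3 ε (r x y)) ^ 2 = ker 3 ε (r x y) := fun y =>
      Real.sq_sqrt (ker_nonneg _ _ _)
    simp only [e1, e2, e3] at h
    have h2 := pow_le_pow_left₀ (abs_nonneg _) h 2
    rw [sq_abs, mul_pow, Real.sq_sqrt (integral_nonneg fun y => ker_nonneg _ _ _),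
      Real.sq_sqrt (integral_nonneg fun y => mul_nonneg (ker_nonneg _ _ _) (sq_nonneg _))] at h2
    exact h2.trans (mul_le_mul_of_nonneg_right (G.ker_vol hε x)
      (integral_nonneg fun y => mul_nonneg (ker_nonneg _ _ _) (sq_nonneg _)))
  have hA := G.A_nonneg
  refine (integral_mono hL.integrable_sq (hprod.integral_prod_left.const_mul (128 * A)) hpt).trans ?_
  rw [integral_const_mul, integral_integral_swap hprod]
  rw [show (128 * A) ^ 2 * ∫ y, u y ^ 2 ∂vol = 128 * A * (128 * A * ∫ y, u y ^ 2 ∂vol) by ring]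
  refine mul_le_mul_of_nonneg_left ?_ (show 0 ≤ 128 * A by positivity)
  rw [← integral_const_mul]
  refine integral_mono hprod.integral_prod_right (hu.integrable_sq.const_mul _) fun y => ?_
  show ∫ x, ker 3 ε (r x y) * u y ^ 2 ∂vol ≤ 128 * A * u y ^ 2
  rw [integral_mul_const]
  refine mul_le_mul_of_nonneg_right ?_ (sq_nonneg _)
  exact (integral_congr_ae (ae_of_all _ fun x => congrArg (ker 3 ε) (G.symm x y))).trans_le
    (G.ker_vol hε y)

/-- The smoothed current, scaled by its width, pairs to zero with a smoothed `L²` function. -/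
theorem tendsto_smoothed_pair (G : Geom vol r L A D) (hπ : Measurable pr) {B : ℝ} (hB0 : 0 ≤ B)
    (hB : ∀ x t, 0 < t → m.real {p | r x (pr p) ≤ t} ≤ B * t ^ 2) {u : X → ℝ} (hu : MemLp u 2 vol)
    (hu0 : ∀ x, 0 ≤ u x) :
    Tendsto (fun ε => ∫ x, (ε * ∫ p, ker 3 ε (r x (pr p)) ∂m) * conv3 vol r ε u x ∂vol)
      (𝓝[>] 0) (𝓝 0) := by
  have hA := G.A_nonneg
  set M := m.real Set.univ
  obtain ⟨u', hum, huu⟩ := hu.aestronglyMeasurable
  have hu' : MemLp u' 2 vol := hu.ae_eq huu
  have hset : ∀ n : ℕ, MeasurableSet {x | (n : ℝ) < |u' x|} := fun n =>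
    measurableSet_lt measurable_const hum.measurable.abs
  set tail : ℕ → X → ℝ := fun n => {x | (n : ℝ) < |u' x|}.indicator fun x => |u' x|
  have htL : ∀ n, MemLp (tail n) 2 vol := fun n => hu'.norm.indicator (hset n)
  have htail : Tendsto (fun n : ℕ => ∫ x, tail n x ^ 2 ∂vol) atTop (𝓝 0) := by
    have hdc := tendsto_integral_of_dominated_convergence (μ := vol) (F := fun n x => tail n x ^ 2)
      (f := fun _ => (0 : ℝ)) (fun x => u' x ^ 2)
      (fun n => (((hum.measurable.abs).indicator (hset n)).pow_const 2).aestronglyMeasurable)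
      hu'.integrable_sq
      (fun n => ae_of_all _ fun x => by
        simp only [tail, Set.indicator_apply]
        split_ifs <;> simp [sq_nonneg])
      (ae_of_all _ fun x => by
        obtain ⟨N, hN⟩ := exists_nat_ge |u' x|
        refine tendsto_const_nhds.congr' ((eventually_ge_atTop N).mono fun n hn => ?_)
        simp only [tail, Set.indicator_apply, Set.mem_ofPred_eq]
        rw [if_neg (not_lt.2 (hN.trans (Nat.cast_le.2 hn)))]; simp)
    simpa using hdc
  set F : ℝ → X → ℝ := fun ε x => ε * ∫ p, ker 3 ε (r x (pr p)) ∂m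
  set K := Real.sqrt (128 ^ 2 * A * B * M) * (128 * A)
  rw [Metric.tendsto_nhds]
  intro η hη
  have h2 : Tendsto (fun n : ℕ => K * Real.sqrt (∫ x, tail n x ^ 2 ∂vol)) atTop (𝓝 0) := by
    simpa using ((Real.continuous_sqrt.tendsto 0).comp htail).const_mul K
  obtain ⟨n, hn⟩ := (h2.eventually_lt_const (half_pos hη)).exists
  have h3 : Tendsto (fun ε : ℝ => 128 * A * n * (ε * (128 * A * M))) (𝓝[>] 0) (𝓝 0) := by
    have : Tendsto (fun ε : ℝ => 128 * A * n * (ε * (128 * A * M))) (𝓝 0)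
        (𝓝 (128 * A * n * (0 * (128 * A * M)))) := (by fun_prop : Continuous _).tendsto _
    simpa using this.mono_left nhdsWithin_le_nhds
  filter_upwards [h3.eventually_lt_const (half_pos hη), self_mem_nhdsWithin] with ε hε3 (hε : 0 < ε)
  have hν : GrowthFrom m r pr ε B := fun x t ht => hB x t (hε.trans_le ht)
  have hkm := G.meas_ker hπ 3 ε
  have hki : Integrable (Function.uncurry fun x p => ker 3 ε (r x (pr p))) (vol.prod m) :=
    Integrable.of_bound hkm.aestronglyMeasurable (1 / ε ^ 4) (ae_of_all _ fun z => by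
      show |ker 3 ε (r z.1 (pr z.2))| ≤ 1 / ε ^ 4
      rw [abs_of_nonneg (ker_nonneg _ _ _)]; exact ker_le 3 hε _)
  have hFm : StronglyMeasurable (F ε) := hkm.stronglyMeasurable.integral_prod_right.const_mul ε
  have hF0 : ∀ x, 0 ≤ F ε x := fun x => mul_nonneg hε.le (integral_nonneg fun p => ker_nonneg _ _ _)
  have hFL : MemLp (F ε) 2 vol := MemLp.of_bound hFm.aestronglyMeasurable (ε * (128 * B / ε ^ 2))
    (ae_of_all _ fun x => by
      rw [Real.norm_eq_abs, abs_of_nonneg (hF0 x)]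
      exact mul_le_mul_of_nonneg_left (G.ker_atoms hπ hε hν x) hε.le)
  have hF2 : ∫ x, F ε x ^ 2 ∂vol ≤ 128 ^ 2 * A * B * M := by
    simp only [F, mul_pow]
    rw [integral_const_mul]
    refine (mul_le_mul_of_nonneg_left (G.smoothing_sq hπ hε hB0 hν) (sq_nonneg ε)).trans_eq ?_
    simp only [M]
    field_simp
  have hF1 : ∫ x, F ε x ∂vol ≤ ε * (128 * A * M) := by
    simp only [F]
    rw [integral_const_mul, integral_integral_swap hki]
    refine mul_le_mul_of_nonneg_left ?_ hε.le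
    refine (integral_mono_of_nonneg (g := fun _ => 128 * A)
      (ae_of_all _ fun p => integral_nonneg fun x => ker_nonneg _ _ _) (integrable_const _)
      (ae_of_all _ fun p => (integral_congr_ae (ae_of_all _ fun x =>
        congrArg (ker 3 ε) (G.symm x (pr p)))).trans_le (G.ker_vol hε (pr p)))).trans_eq ?_
    rw [integral_const, smul_eq_mul, mul_comm]
  obtain ⟨htc, htc2⟩ := conv3_sq G hε (htL n)
  have hconv : ∀ x, 0 ≤ conv3 vol r ε u x ∧
      conv3 vol r ε u x ≤ 128 * A * n + conv3 vol r ε (tail n) x := fun x => by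
    refine ⟨integral_nonneg fun y => mul_nonneg (ker_nonneg _ _ _) (hu0 y), ?_⟩
    have hkx : Measurable fun y => ker 3 ε (r x y) := (G.meas_ker measurable_id 3 ε).of_uncurry_left
    have ik : Integrable (fun y => ker 3 ε (r x y)) vol :=
      Integrable.of_bound hkx.aestronglyMeasurable (1 / ε ^ 4) (ae_of_all _ fun y => by
        rw [Real.norm_eq_abs, abs_of_nonneg (ker_nonneg _ _ _)]; exact ker_le 3 hε _)
    have it : Integrable (fun y => ker 3 ε (r x y) * tail n y) vol :=
      ((htL n).integrable one_le_two).bdd_mul (c := 1 / ε ^ 4) hkx.aestronglyMeasurable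
        (ae_of_all _ fun y => by
          rw [Real.norm_eq_abs, abs_of_nonneg (ker_nonneg _ _ _)]; exact ker_le 3 hε _)
    refine le_trans (integral_mono_of_nonneg
      (ae_of_all _ fun y => mul_nonneg (ker_nonneg _ _ _) (hu0 y))
      ((ik.const_mul (n : ℝ)).add it) ?_) ?_
    · filter_upwards [huu] with y hy
      show ker 3 ε (r x y) * u y ≤ (n : ℝ) * ker 3 ε (r x y) + ker 3 ε (r x y) * tail n y
      have : u y ≤ n + tail n y := by
        rw [hy]
        simp only [tail, Set.indicator_apply, Set.mem_ofPred_eq]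
        split_ifs with hc
        · linarith [le_abs_self (u' y), (Nat.cast_nonneg n : (0 : ℝ) ≤ n)]
        · linarith [le_abs_self (u' y), not_lt.1 hc]
      nlinarith [mul_le_mul_of_nonneg_left this (ker_nonneg 3 ε (r x y))]
    · simp only [Pi.add_apply]
      rw [integral_add (ik.const_mul _) it, integral_const_mul]
      have := mul_le_mul_of_nonneg_left (G.ker_vol hε x) (Nat.cast_nonneg (α := ℝ) n)
      show _ ≤ 128 * A * n + ∫ y, ker 3 ε (r x y) * tail n y ∂vol
      linarith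
  have hiF : Integrable (F ε) vol := hFL.integrable one_le_two
  have hit : Integrable (fun x => F ε x * conv3 vol r ε (tail n) x) vol := hFL.integrable_mul htc
  rw [Real.dist_eq, sub_zero,
    abs_of_nonneg (integral_nonneg fun x => mul_nonneg (hF0 x) (hconv x).1)]
  refine lt_of_le_of_lt ((integral_mono_of_nonneg
    (ae_of_all _ fun x => mul_nonneg (hF0 x) (hconv x).1) ((hiF.const_mul (128 * A * n)).add hit)
    (ae_of_all _ fun x => ?_))) ?_
  · show F ε x * conv3 vol r ε u x ≤ 128 * A * n * F ε x + F ε x * conv3 vol r ε (tail n) x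
    nlinarith [mul_le_mul_of_nonneg_left (hconv x).2 (hF0 x)]
  · simp only [Pi.add_apply]
    rw [integral_add (hiF.const_mul _) hit, integral_const_mul]
    have hcs : ∫ x, F ε x * conv3 vol r ε (tail n) x ∂vol ≤
        K * Real.sqrt (∫ x, tail n x ^ 2 ∂vol) := by
      refine (le_abs_self _).trans ((abs_integral_mul_le hFL htc).trans ?_)
      calc Real.sqrt (∫ x, F ε x ^ 2 ∂vol) * Real.sqrt (∫ x, conv3 vol r ε (tail n) x ^ 2 ∂vol)
          ≤ Real.sqrt (128 ^ 2 * A * B * M) * Real.sqrt ((128 * A) ^ 2 * ∫ x, tail n x ^ 2 ∂vol) :=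
            mul_le_mul (Real.sqrt_le_sqrt hF2) (Real.sqrt_le_sqrt htc2) (Real.sqrt_nonneg _)
              (Real.sqrt_nonneg _)
        _ = _ := by
            rw [Real.sqrt_mul (sq_nonneg _), Real.sqrt_sq (by positivity)]; simp only [K]; ring
    have := mul_le_mul_of_nonneg_left hF1 (show 0 ≤ 128 * A * n by positivity)
    linarith

end smoothed

end Vale.Agent.P204.Est
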