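import Mathlib

/-!
# P204: smooth dependence of weighted integrals on a parameter

The integrand is `w z • F (x, pr z)` with an integrable weight `w`, whose support is sent by `pr`
into a compact set.
-/

open MeasureTheory Filter
open scoped ContDiff Topology

namespace Vale.Agent.P204.Est

variable {H : Type} [NormedAddCommGroup H] [NormedSpace ℝ H] [ProperSpace H]
  {P : Type} [NormedAddCommGroup P] [NormedSpace ℝ P] [MeasurableSpace P] [BorelSpace P]
  [SecondCountableTopology P] {Z : Type*} [MeasurableSpace Z] {μ : Measure Z} {w : Z → ℝ}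
  {pr : Z → P}

omit [NormedSpace ℝ H] [NormedSpace ℝ P] [MeasurableSpace P] [BorelSpace P]
  [SecondCountableTopology P] in
/-- A continuous function is bounded near every parameter, on the carrier. -/
theorem bound_near {E : Type} [NormedAddCommGroup E] {F : H × P → E} (hF : Continuous F)
    {K : Set P} (hK : IsCompact K) (x₀ : H) :
    ∃ C : ℝ, ∀ x ∈ Metric.closedBall x₀ 1, ∀ p ∈ K, ‖F (x, p)‖ ≤ C := by
  obtain ⟨C, hC⟩ := ((isCompact_closedBall x₀ 1).prod hK).exists_bound_of_continuousOn
    hF.continuousOn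
  exact ⟨C, fun x hx p hp => hC (x, p) ⟨hx, hp⟩⟩

omit [NormedSpace ℝ P] in
/-- The weighted integrand is integrable. -/
theorem integrable_carried {E : Type} [NormedAddCommGroup E] [NormedSpace ℝ E] {g : P → E}
    (hg : Continuous g) (hw : Integrable w μ) (hpr : Measurable pr) {K : Set P} (hK : IsCompact K)
    (hsupp : ∀ᵐ z ∂μ, w z ≠ 0 → pr z ∈ K) : Integrable (fun z => w z • g (pr z)) μ := by
  obtain ⟨C, hC⟩ := hK.exists_bound_of_continuousOn hg.continuousOn
  refine Integrable.mono' (hw.norm.mul_const C)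
    (hw.aestronglyMeasurable.smul (hg.comp_aestronglyMeasurable hpr.aemeasurable.aestronglyMeasurable))
    (hsupp.mono fun z hz => ?_)
  rw [norm_smul]
  rcases eq_or_ne (w z) 0 with h | h
  · simp [h]
  · exact mul_le_mul_of_nonneg_left (hC _ (hz h)) (norm_nonneg _)

/-- Differentiation under the integral sign. -/
theorem hasFDerivAt_param {E : Type} [NormedAddCommGroup E] [NormedSpace ℝ E] [CompleteSpace E]
    {F : H × P → E} (hF : ContDiff ℝ ∞ F) (hw : Integrable w μ) (hpr : Measurable pr) {K : Set P}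
    (hK : IsCompact K) (hsupp : ∀ᵐ z ∂μ, w z ≠ 0 → pr z ∈ K) (x₀ : H) :
    HasFDerivAt (fun x => ∫ z, w z • F (x, pr z) ∂μ)
      (∫ z, w z • (fderiv ℝ F (x₀, pr z)).comp (ContinuousLinearMap.inl ℝ H P) ∂μ) x₀ := by
  have hd : Continuous fun q : H × P =>
      (fderiv ℝ F q).comp (ContinuousLinearMap.inl ℝ H P) :=
    (hF.continuous_fderiv (by simp)).clm_comp continuous_const
  obtain ⟨C, hC⟩ := bound_near hd hK x₀
  have hx : ∀ x, Integrable (fun z => w z • F (x, pr z)) μ := fun x =>
    integrable_carried (g := fun p => F (x, p))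
      (hF.continuous.comp (by fun_prop : Continuous fun p : P => (x, p))) hw hpr hK hsupp
  refine hasFDerivAt_integral_of_dominated_of_fderiv_le (F := fun x z => w z • F (x, pr z))
    (F' := fun x z => w z • (fderiv ℝ F (x, pr z)).comp (ContinuousLinearMap.inl ℝ H P))
    (bound := fun z => ‖w z‖ * C) (Metric.closedBall_mem_nhds x₀ one_pos)
    (Eventually.of_forall fun x => (hx x).aestronglyMeasurable) (hx x₀)
    (integrable_carried (g := fun p => (fderiv ℝ F (x₀, p)).comp (ContinuousLinearMap.inl ℝ H P))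
      (hd.comp (by fun_prop : Continuous fun p : P => (x₀, p))) hw hpr hK hsupp).aestronglyMeasurable
    (hsupp.mono fun z hz x hx' => ?_) (hw.norm.mul_const C) (Eventually.of_forall fun z x _ => ?_)
  · rw [norm_smul]
    rcases eq_or_ne (w z) 0 with h | h
    · simp [h]
    · exact mul_le_mul_of_nonneg_left (hC x hx' _ (hz h)) (norm_nonneg _)
  · have := ((hF.differentiable (by simp)).differentiableAt (x := (x, pr z))).hasFDerivAt.comp x
      (hasFDerivAt_prodMk_left (𝕜 := ℝ) x (pr z))
    exact this.const_smul (w z)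

/-- The derivative of an integral, applied to a direction. -/
theorem fderiv_param_apply {E : Type} [NormedAddCommGroup E] [NormedSpace ℝ E] [CompleteSpace E]
    {F : H × P → E} (hF : ContDiff ℝ ∞ F) (hw : Integrable w μ) (hpr : Measurable pr) {K : Set P}
    (hK : IsCompact K) (hsupp : ∀ᵐ z ∂μ, w z ≠ 0 → pr z ∈ K) (x₀ v : H) :
    fderiv ℝ (fun x => ∫ z, w z • F (x, pr z) ∂μ) x₀ v
      = ∫ z, w z • fderiv ℝ (fun x => F (x, pr z)) x₀ v ∂μ := by
  have hd : Continuous fun p : P =>
      (fderiv ℝ F (x₀, p)).comp (ContinuousLinearMap.inl ℝ H P) :=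
    ((hF.continuous_fderiv (by simp)).comp
      (by fun_prop : Continuous fun p : P => (x₀, p))).clm_comp continuous_const
  rw [(hasFDerivAt_param hF hw hpr hK hsupp x₀).fderiv,
    ContinuousLinearMap.integral_apply (integrable_carried hd hw hpr hK hsupp)]
  refine integral_congr_ae (Eventually.of_forall fun z => ?_)
  have := ((hF.differentiable (by simp)).differentiableAt (x := (x₀, pr z))).hasFDerivAt.comp x₀
    (hasFDerivAt_prodMk_left (𝕜 := ℝ) x₀ (pr z))
  exact congrArg (w z • ·) (DFunLike.congr_fun this.fderiv v).symm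

theorem contDiff_param_nat (n : ℕ) : ∀ (E : Type) [NormedAddCommGroup E] [NormedSpace ℝ E]
    [CompleteSpace E] (F : H × P → E), ContDiff ℝ ∞ F → Integrable w μ → Measurable pr →
    ∀ K : Set P, IsCompact K → (∀ᵐ z ∂μ, w z ≠ 0 → pr z ∈ K) →
      ContDiff ℝ n fun x => ∫ z, w z • F (x, pr z) ∂μ := by
  induction n with
  | zero =>
    intro E _ _ _ F hF hw hpr K hK hsupp
    rw [Nat.cast_zero, contDiff_zero]
    refine continuous_iff_continuousAt.2 fun x₀ => ?_
    exact (hasFDerivAt_param hF hw hpr hK hsupp x₀).continuousAt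
  | succ n ih =>
    intro E _ _ _ F hF hw hpr K hK hsupp
    rw [Nat.cast_succ, contDiff_succ_iff_fderiv]
    refine ⟨fun x => (hasFDerivAt_param hF hw hpr hK hsupp x).differentiableAt, by simp, ?_⟩
    have he : fderiv ℝ (fun x => ∫ z, w z • F (x, pr z) ∂μ) = fun x =>
        ∫ z, w z • (fderiv ℝ F (x, pr z)).comp (ContinuousLinearMap.inl ℝ H P) ∂μ :=
      funext fun x => (hasFDerivAt_param hF hw hpr hK hsupp x).fderiv
    rw [he]
    exact ih (H →L[ℝ] E) (fun q => (fderiv ℝ F q).comp (ContinuousLinearMap.inl ℝ H P))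
      ((hF.fderiv_right (by simp)).clm_comp contDiff_const) hw hpr K hK hsupp

/-- An integral of a smooth function depends smoothly on the parameter. -/
theorem contDiff_param {E : Type} [NormedAddCommGroup E] [NormedSpace ℝ E] [CompleteSpace E]
    {F : H × P → E} (hF : ContDiff ℝ ∞ F) (hw : Integrable w μ) (hpr : Measurable pr) {K : Set P}
    (hK : IsCompact K) (hsupp : ∀ᵐ z ∂μ, w z ≠ 0 → pr z ∈ K) :
    ContDiff ℝ ∞ fun x => ∫ z, w z • F (x, pr z) ∂μ :=
  contDiff_infty.2 fun n => contDiff_param_nat n E F hF hw hpr K hK hsupp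

end Vale.Agent.P204.Est
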