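import Mathlib

/-!
# P204: an `L²` bounded functional on test functions is given by a square integrable function
-/

open MeasureTheory

namespace Vale.Agent.P204.Est

variable {α : Type*} [MeasurableSpace α] {μ : Measure α}

theorem exists_repr (P : Submodule ℝ (α → ℝ)) (hP : ∀ f ∈ P, MemLp f 2 μ) (L : (α → ℝ) → ℝ) {C : ℝ}
    (hadd : ∀ f ∈ P, ∀ g ∈ P, L (f + g) = L f + L g)
    (hsmul : ∀ (c : ℝ), ∀ f ∈ P, L (c • f) = c * L f)
    (hbd : ∀ f ∈ P, |L f| ≤ C * Real.sqrt (∫ x, f x ^ 2 ∂μ)) :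
    ∃ ρ : α → ℝ, StronglyMeasurable ρ ∧ MemLp ρ 2 μ ∧ ∀ f ∈ P, L f = ∫ x, ρ x * f x ∂μ := by
  classical
  let T : P →ₗ[ℝ] Lp ℝ 2 μ :=
    { toFun := fun f => (hP f.1 f.2).toLp f.1
      map_add' := fun f g => MemLp.toLp_add (hP f.1 f.2) (hP g.1 g.2)
      map_smul' := fun c f => MemLp.toLp_const_smul c (hP f.1 f.2) }
  have hnorm : ∀ f : P, ‖T f‖ = Real.sqrt (∫ x, f.1 x ^ 2 ∂μ) := fun f => by
    rw [norm_eq_sqrt_real_inner, L2.inner_def]
    refine congrArg _ (integral_congr_ae ?_)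
    filter_upwards [MemLp.coeFn_toLp (hP f.1 f.2)] with x hx
    simp [T, hx, pow_two]
  let ℓ : P →ₗ[ℝ] ℝ :=
    { toFun := fun f => L f.1
      map_add' := fun f g => hadd f.1 f.2 g.1 g.2
      map_smul' := fun c f => hsmul c f.1 f.2 }
  have hker : LinearMap.ker T ≤ LinearMap.ker ℓ := fun f hf => by
    rw [LinearMap.mem_ker] at hf ⊢
    have h := hbd f.1 f.2
    rw [← hnorm, hf, norm_zero, mul_zero] at h
    exact abs_nonpos_iff.1 h
  let ψ : LinearMap.range T →ₗ[ℝ] ℝ :=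
    ((LinearMap.ker T).liftQ ℓ hker) ∘ₗ T.quotKerEquivRange.symm.toLinearMap
  have hψ : ∀ f : P, ψ ⟨T f, LinearMap.mem_range_self T f⟩ = L f.1 := fun f => by
    simp only [ψ, LinearMap.comp_apply, LinearEquiv.coe_coe]
    rw [LinearMap.quotKerEquivRange_symm_apply_image T f (LinearMap.mem_range_self T f)]
    rfl
  let ψc : LinearMap.range T →L[ℝ] ℝ := ψ.mkContinuous C fun y => by
    obtain ⟨f, hf⟩ := y.2
    have hy : y = ⟨T f, LinearMap.mem_range_self T f⟩ := Subtype.ext hf.symm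
    rw [hy, hψ, Real.norm_eq_abs]
    refine (hbd f.1 f.2).trans_eq ?_
    rw [← hnorm]; rfl
  obtain ⟨g, hg, -⟩ := _root_.exists_extension_norm_eq (LinearMap.range T) ψc
  set ρ := (InnerProductSpace.toDual ℝ (Lp ℝ 2 μ)).symm g
  refine ⟨ρ, Lp.stronglyMeasurable _, Lp.memLp ρ, fun f hf => ?_⟩
  have h1 : g (T ⟨f, hf⟩) = L f := by
    rw [← hψ ⟨f, hf⟩]; exact hg ⟨T ⟨f, hf⟩, LinearMap.mem_range_self T _⟩
  rw [← h1, ← InnerProductSpace.toDual_symm_apply (𝕜 := ℝ) (y := g), L2.inner_def]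
  refine integral_congr_ae ?_
  filter_upwards [MemLp.coeFn_toLp (hP f hf)] with x hx
  simp [T, ρ, hx, mul_comm]

end Vale.Agent.P204.Est
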